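import Vale.Agent.P221.H174.MG

/-!
# P221, block D1: the evaluation `κ : Hom(X, N) ⟶ Lin (M(X)) (π_{2*} N)`

`N` an `R`-module on which `p = 0`, `r : N ⊗ C ⟶ N` a retraction of `N ⟶ N ⊗ C`.

* `GM.Lin.ext`, `GM.castA`, `GM.Lin.fn`, `GM.Lin.ofFn` : linear maps and functionals of degree `0`;
* `Ctx.Tgt` : the target `N`; `Tgt.G : GM (ZMod p)`; `Tgt.kap f : Lin univ (M X) G`;
* `Tgt.KInj X`, `Tgt.KSurj X` : `κ` is injective (surjective) for `X`; closure properties.
-/

open CategoryTheory MonoidalCategory Limits Pretriangulated MonObj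
open Vale.Agent.P251.T Vale.Agent.P251.M Vale.Agent.P251.S Vale.Agent.P251.I Vale.Agent.P093.N0
open Vale.Agent.P251.M.EvenSpheres

universe u

set_option linter.unusedSectionVars false
set_option linter.unusedVariables false

noncomputable section

namespace Vale.Agent.P221

namespace GM

variable {k : Type} [CommRing k]

theorem Lin.ext {P : Set ℕ} {M N : GM k} {f g : Lin P M N} (h : ∀ i x, f.f i x = g.f i x) :
    f = g := by
  obtain ⟨f, hf⟩ := f
  obtain ⟨g, hg⟩ := g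
  obtain rfl : f = g := by
    funext i
    exact LinearMap.ext (h i)
  rfl

/-- transport along an equality of degrees -/
def castA (M : GM k) {i j : ℤ} (h : i = j) : M.A i →ₗ[k] M.A j := h ▸ LinearMap.id

@[simp] theorem castA_rfl (M : GM k) {i : ℤ} (x : M.A i) : M.castA rfl x = x := rfl

/-- the functional of degree `0` given by a linear map -/
def Lin.fn {P : Set ℕ} {M N : GM k} (f : Lin P M N) : Fn M N 0 :=
  fun q => f.f q.1.2 ∘ₗ M.castA (by have := q.2; omega)

theorem Lin.fn_apply {P : Set ℕ} {M N : GM k} (f : Lin P M N) (i : ℤ) (h : i + 0 = i)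
    (x : M.A i) : f.fn (ix h) x = f.f i x := rfl

theorem Fn.ext_zero {M N : GM k} {φ ψ : Fn M N 0}
    (h : ∀ (i : ℤ) (hi : i + 0 = i) (x : M.A i), φ (ix hi) x = ψ (ix hi) x) : φ = ψ := by
  funext ⟨⟨i, j⟩, hij⟩
  have hij' : i = j := by
    have : i + 0 = j := hij
    omega
  subst hij'
  exact LinearMap.ext (h i hij)

theorem Lin.com_fn {P : Set ℕ} {M N : GM k} (f : Lin P M N) {m : ℕ} (hm : m ∈ P) :
    Com m f.fn := by
  intro i j i' j' h1 h2 h3 h4 x
  obtain rfl : i = j := by omega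
  obtain rfl : i' = j' := by omega
  exact f.comm m hm h3 x

/-- the linear map given by a functional of degree `0` -/
def Lin.ofFn {P : Set ℕ} {M N : GM k} (φ : Fn M N 0) (h : ∀ m ∈ P, Com m φ) : Lin P M N where
  f i := φ (ix (add_zero i))
  comm m hm {i j} h1 x := h m hm i i j j (add_zero i) (add_zero j) h1 h1 x

theorem Lin.fn_ofFn {P : Set ℕ} {M N : GM k} (φ : Fn M N 0) (h : ∀ m ∈ P, Com m φ) :
    (Lin.ofFn φ h).fn = φ := Fn.ext_zero fun i hi x => rfl

theorem Lin.ofFn_fn {P : Set ℕ} {M N : GM k} (f : Lin P M N) :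
    Lin.ofFn f.fn (fun m hm => f.com_fn hm) = f := Lin.ext fun i x => rfl

theorem Lin.fn_injective {P : Set ℕ} {M N : GM k} {f g : Lin P M N} (h : f.fn = g.fn) :
    f = g := Lin.ext fun i x => by
  rw [← Lin.fn_apply f i (add_zero i) x, h, Lin.fn_apply]

theorem Lin.comp_fn {P : Set ℕ} {L M N : GM k} (f : Lin P L M) (g : Lin P M N) :
    (f.comp g).fn = Fn.pull f g.fn := Fn.ext_zero fun i hi x => rfl

instance {P : Set ℕ} {M N : GM k} : Zero (Lin P M N) where
  zero := ⟨fun _ => 0, fun m _ {i j} h x => by simp⟩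

@[simp] theorem Lin.zero_f {P : Set ℕ} {M N : GM k} (i : ℤ) (x : M.A i) :
    (0 : Lin P M N).f i x = 0 := rfl

instance {P : Set ℕ} {M N : GM k} : Add (Lin P M N) where
  add f g := ⟨fun i => f.f i + g.f i, fun m hm {i j} h x => by
    simp only [LinearMap.add_apply, f.comm m hm h x, g.comm m hm h x, map_add]⟩

@[simp] theorem Lin.add_f {P : Set ℕ} {M N : GM k} (f g : Lin P M N) (i : ℤ) (x : M.A i) :
    (f + g).f i x = f.f i x + g.f i x := rfl

instance {P : Set ℕ} {M N : GM k} : Sub (Lin P M N) where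
  sub f g := ⟨fun i => f.f i - g.f i, fun m hm {i j} h x => by
    simp only [LinearMap.sub_apply, f.comm m hm h x, g.comm m hm h x, map_sub]⟩

@[simp] theorem Lin.sub_f {P : Set ℕ} {M N : GM k} (f g : Lin P M N) (i : ℤ) (x : M.A i) :
    (f - g).f i x = f.f i x - g.f i x := rfl

end GM

namespace H174

variable {T : Type u} [Category.{0} T] [Preadditive T] [HasZeroObject T]
    [HasShift T ℤ] [∀ n : ℤ, (shiftFunctor T n).Additive] [Pretriangulated T] [IsTriangulated T]
    [MonoidalCategory T] [SymmetricCategory T] [TensorTriangulated T] [MonoidalClosed T]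
    [HasCoproducts.{0} T] [HasProducts.{0} T] [StableCat T] {p : ℕ}

/-- An `R`-module `N` on which `p = 0`, with a retraction of `N ⟶ N ⊗ C`. -/
structure Tgt (c : Ctx T p) where
  /-- the object -/
  N : T
  /-- the action of `R` -/
  L : ModStr c.R N
  pN : (p : ℤ) • 𝟙 N = 0
  /-- the retraction -/
  r : N ⊗ c.C ⟶ N
  hr : rd c.i N ≫ r = 𝟙 N

/-- every `R`-module on which `p = 0` is a target -/
theorem Ctx.exists_tgt (c : Ctx T p) {N : T} (L : ModStr c.R N) (pN : (p : ℤ) • 𝟙 N = 0) :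
    ∃ t : Tgt c, t.N = N ∧ HEq t.L L := by
  obtain ⟨r, hr⟩ := exists_c c.dist pN
  exact ⟨⟨N, L, pN, r, hr⟩, rfl, HEq.rfl⟩

namespace Tgt

variable {c : Ctx T p} (t : Tgt c)

/-- `π_{2*} N` -/
def G : GM (ZMod p) := c.LG t.L t.pN

/-- The linear map `M(X) ⟶ π_{2*} N` given by `f : X ⟶ N`. -/
def kap {X : T} (f : X ⟶ t.N) : GM.Lin Set.univ (c.M X) t.G := c.lin (kfun_linear t.L t.r f)

theorem kap_apply {X : T} (f : X ⟶ t.N) (i : ℤ) (x : (stdEven T).S i ⟶ c.R ⊗ (X ⊗ c.C)) :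
    ((t.kap f).f i x : (stdEven T).S i ⟶ t.N) = x ≫ kfun t.L t.r f := rfl

theorem kap_comp {X Y : T} (g : X ⟶ Y) (f : Y ⟶ t.N) :
    t.kap (g ≫ f) = (c.map g).comp (t.kap f) := GM.Lin.ext fun i x => by
  refine (t.kap_apply (g ≫ f) i x).trans ?_
  rw [kfun_comp]
  exact (Category.assoc (x : (stdEven T).S i ⟶ c.R ⊗ (X ⊗ c.C)) _ _).symm

theorem kap_add {X : T} (f g : X ⟶ t.N) : t.kap (f + g) = t.kap f + t.kap g :=
  GM.Lin.ext fun i x => by
    refine (t.kap_apply (f + g) i x).trans ?_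
    rw [kfun_add]
    exact Preadditive.comp_add _ _ _ (x : (stdEven T).S i ⟶ c.R ⊗ (X ⊗ c.C)) _ _

theorem kap_zero {X : T} : t.kap (0 : X ⟶ t.N) = 0 :=
  GM.Lin.ext fun i x => by
    refine (t.kap_apply (0 : X ⟶ t.N) i x).trans ?_
    rw [kfun_zero]
    exact comp_zero (X := (stdEven T).S i)

theorem kap_sub {X : T} (f g : X ⟶ t.N) : t.kap (f - g) = t.kap f - t.kap g := by
  have h : t.kap f = t.kap (f - g) + t.kap g := by rw [← t.kap_add, sub_add_cancel]
  refine GM.Lin.ext fun i x => ?_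
  rw [GM.Lin.sub_f, h, GM.Lin.add_f, add_sub_cancel_right]

/-- `κ` is injective for `X`. -/
def KInj (X : T) : Prop := ∀ f : X ⟶ t.N, t.kap f = 0 → f = 0

/-- `κ` is surjective for `X`. -/
def KSurj (X : T) : Prop := ∀ φ : GM.Lin Set.univ (c.M X) t.G, ∃ f : X ⟶ t.N, t.kap f = φ

variable {t}

theorem KInj.of_iso {X Y : T} (e : X ≅ Y) (h : t.KInj X) : t.KInj Y := by
  intro f hf
  have h1 : e.hom ≫ f = 0 := h _ (by
    rw [t.kap_comp, hf]
    exact GM.Lin.ext fun i x => rfl)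
  rw [← cancel_epi e.hom, h1, comp_zero]

theorem KSurj.of_iso {X Y : T} (e : X ≅ Y) (h : t.KSurj X) : t.KSurj Y := by
  intro φ
  obtain ⟨f, hf⟩ := h ((c.map e.hom).comp φ)
  refine ⟨e.inv ≫ f, ?_⟩
  rw [t.kap_comp, hf]
  refine GM.Lin.ext fun i x => ?_
  change φ.f i ((c.map e.hom).f i ((c.map e.inv).f i x)) = φ.f i x
  rw [← c.map_comp, Iso.inv_hom_id, c.map_id]

section tri

variable {X Y Z : T} {f : X ⟶ Y} {g : Y ⟶ Z} {h : Z ⟶ X⟦(1 : ℤ)⟧}
  (H : Triangle.mk f g h ∈ distTriang T)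

include H

/-- injectivity for an extension -/
theorem KInj.ext (hX : t.KInj X) (hZ : t.KInj Z)
    (hg : ∀ i (z : (c.M Z).A i), ∃ y, (c.map g).f i y = z) : t.KInj Y := by
  intro u hu
  have h1 : f ≫ u = 0 := hX _ (by
    rw [t.kap_comp, hu]
    exact GM.Lin.ext fun i x => rfl)
  obtain ⟨v, rfl⟩ : ∃ v : Z ⟶ t.N, u = g ≫ v := Triangle.yoneda_exact₂ _ H u h1
  have h2 : v = 0 := hZ _ (GM.Lin.ext fun i z => by
    obtain ⟨y, rfl⟩ := hg i z
    have h3 : ((c.map g).comp (t.kap v)).f i y = 0 := by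
      rw [← t.kap_comp, hu]
      rfl
    exact h3)
  rw [h2, comp_zero]

/-- surjectivity for an extension -/
theorem KSurj.ext {W : T} {w : W ⟶ X} (hw : ∀ (A : T) (a : X ⟶ A), w ≫ a = 0 → ∃ b, a = f ≫ b)
    (hwf : w ≫ f = 0)
    (hX : t.KSurj X) (hZ : t.KSurj Z) (hW : t.KInj W)
    (hg : ∀ i (z : (c.M Z).A i), ∃ y, (c.map g).f i y = z) : t.KSurj Y := by
  intro φ
  obtain ⟨u, hu⟩ := hX ((c.map f).comp φ)
  have h1 : w ≫ u = 0 := hW _ (GM.Lin.ext fun i x => by
    rw [t.kap_comp, hu]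
    change φ.f i ((c.map f).f i ((c.map w).f i x)) = 0
    rw [← c.map_comp, hwf, c.map_zero, map_zero])
  obtain ⟨v, rfl⟩ := hw _ u h1
  -- the difference vanishes on `M(X)`, so comes from `M(Z)`
  have h2 : ∀ i (x : (c.M X).A i), (φ - t.kap v).f i ((c.map f).f i x) = 0 := by
    intro i x
    have h3 := congrArg (fun z : GM.Lin Set.univ (c.M X) t.G => z.f i x) hu
    rw [t.kap_comp] at h3
    change (t.kap v).f i ((c.map f).f i x) = φ.f i ((c.map f).f i x) at h3
    rw [GM.Lin.sub_f, h3, sub_self]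
  have h4 : ∀ i (y y' : (c.M Y).A i), (c.map g).f i y = (c.map g).f i y' →
      (φ - t.kap v).f i y = (φ - t.kap v).f i y' := by
    intro i y y' hy
    obtain ⟨x, hx⟩ := c.exact₂ H i (y - y') (by rw [map_sub, hy, sub_self])
    have h5 := h2 i x
    rw [hx, map_sub] at h5
    exact sub_eq_zero.1 h5
  choose s hs using hg
  let ψ : GM.Lin Set.univ (c.M Z) t.G :=
    { f := fun i =>
        { toFun := fun z => (φ - t.kap v).f i (s i z)
          map_add' := fun z z' => by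
            rw [← map_add]
            exact h4 i _ _ (by rw [hs, map_add, hs, hs])
          map_smul' := fun a z => by
            rw [RingHom.id_apply, ← map_smul]
            exact h4 i _ _ (by rw [hs, map_smul, hs]) }
      comm := fun m hm {i j} h z => by
        change (φ - t.kap v).f j (s j ((c.M Z).act m h z)) =
          t.G.act m h ((φ - t.kap v).f i (s i z))
        rw [← (φ - t.kap v).comm m hm]
        exact h4 j _ _ (by rw [hs, (c.map g).comm m hm, hs]) }
  obtain ⟨a, ha⟩ := hZ ψ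
  refine ⟨v + g ≫ a, ?_⟩
  rw [t.kap_add, t.kap_comp, ha]
  refine GM.Lin.ext fun i y => ?_
  change (t.kap v).f i y + (φ - t.kap v).f i (s i ((c.map g).f i y)) = φ.f i y
  rw [h4 i _ y (hs i _), GM.Lin.sub_f, add_sub_cancel]

end tri

end Tgt

end H174

end Vale.Agent.P221
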