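import Vale.Agent.P221.H174.Zeta
import Vale.Agent.P221.H174.Kap
import Vale.Agent.P251.Z.LazMod

/-!
# P221, block D1: the homotopy of `R ⊗ C` for `R = MU`

* `yMU D p m ∈ π_{2(m+1)} R` : the image of `zeta p m`;
* `Rep D i w x z` : `x : S^{2w} ⟶ R ⊗ C` is the image of the homogeneous `z ∈ Laz`;
* `Ctx.ofMU D hA hC : Ctx T p`;
* `exists_gen` : every class in `π_{2*} R` is a polynomial in the `y m` modulo `p`.
-/

open CategoryTheory MonoidalCategory Limits Pretriangulated MonObj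
open Vale.Agent.P251.T Vale.Agent.P251.M Vale.Agent.P251.S Vale.Agent.P251.I Vale.Agent.P093.N0
open Vale.Agent.P251.M.EvenSpheres Vale.Agent.P251.F Vale.Agent.P251.Z

universe v u

set_option linter.unusedSectionVars false
set_option linter.unusedVariables false

noncomputable section

namespace Vale.Agent.P221.H174

section

variable {T : Type u} [Category.{v} T] [Preadditive T] [HasZeroObject T]
    [HasShift T ℤ] [∀ n : ℤ, (shiftFunctor T n).Additive] [Pretriangulated T] [IsTriangulated T]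
    [MonoidalCategory T] [SymmetricCategory T] [TensorTriangulated T] [MonoidalClosed T]
    [HasCoproducts.{0} T] [HasProducts.{0} T] [StableCat T]

variable (D : MUData T) {C : T} {i : 𝟙_ T ⟶ C} {p : ℕ} [Fact p.Prime]
  {δ : C ⟶ (𝟙_ T)⟦(1 : ℤ)⟧}

theorem exists_yMU (p : ℕ) [Fact p.Prime] (m : ℕ) : ∃ a : (stdEven T).S (wtm m) ⟶ D.R,
    L0 D (zeta p m) = HRing.of (stdEven T) D.R (wtm m) a := by
  obtain ⟨a, ha⟩ := D.ev_wt 0 (wtm m) _ (isWt_zeta p m)
  refine ⟨a ≫ Vale.Agent.P251.I.amOne D.R, ?_⟩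
  rw [L0_eq, ha, HRing.map_of]

/-- the classes `y_m ∈ π_{2(m+1)} MU` -/
def yMU (p : ℕ) [Fact p.Prime] (m : ℕ) : (stdEven T).S ((m : ℤ) + 1) ⟶ D.R :=
  (exists_yMU D p m).choose

theorem L0_zeta (m : ℕ) :
    L0 D (zeta p m) = HRing.of (stdEven T) D.R (wtm m) (yMU D p m) :=
  (exists_yMU D p m).choose_spec

/-- a homogeneous element of `Laz` gives a class in `π_{2w} R` -/
theorem exists_of_isWt {w : ℤ} {z : Laz} (hz : Cob.IsWt w (MvPolynomial.C z : Cob Laz 0)) :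
    ∃ a : (stdEven T).S w ⟶ D.R, L0 D z = HRing.of (stdEven T) D.R w a := by
  obtain ⟨a, ha⟩ := D.ev_wt 0 w _ hz
  refine ⟨a ≫ Vale.Agent.P251.I.amOne D.R, ?_⟩
  rw [L0_eq, ha, HRing.map_of]

/-- `x : S^{2w} ⟶ R ⊗ C` is the image of the homogeneous `z ∈ Laz` -/
structure Rep (i : 𝟙_ T ⟶ C) (w : ℤ) (x : (stdEven T).S w ⟶ D.R ⊗ C) (z : Laz) : Prop where
  wt : Cob.IsWt w (MvPolynomial.C z : Cob Laz 0)
  ex : ∃ a : (stdEven T).S w ⟶ D.R, L0 D z = HRing.of (stdEven T) D.R w a ∧ x = a ≫ rd i D.R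

variable {D}

theorem Rep.add {w : ℤ} {x x' : (stdEven T).S w ⟶ D.R ⊗ C} {z z' : Laz} (h : Rep D i w x z)
    (h' : Rep D i w x' z') : Rep D i w (x + x') (z + z') := by
  obtain ⟨h1, a, h2, rfl⟩ := h
  obtain ⟨h1', a', h2', rfl⟩ := h'
  refine ⟨by rw [map_add]; exact h1.add h1', a + a', ?_, by rw [Preadditive.add_comp]⟩
  rw [map_add, h2, h2']
  exact ((DirectSum.of ((stdEven T).Gr D.R) w).map_add a a').symm

theorem Rep.neg {w : ℤ} {x : (stdEven T).S w ⟶ D.R ⊗ C} {z : Laz} (h : Rep D i w x z) :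
    Rep D i w (-x) (-z) := by
  obtain ⟨h1, a, h2, rfl⟩ := h
  refine ⟨by rw [map_neg]; exact h1.neg, -a, ?_, by rw [Preadditive.neg_comp]⟩
  rw [map_neg, h2]
  exact ((DirectSum.of ((stdEven T).Gr D.R) w).map_neg a).symm

theorem Rep.sub {w : ℤ} {x x' : (stdEven T).S w ⟶ D.R ⊗ C} {z z' : Laz} (h : Rep D i w x z)
    (h' : Rep D i w x' z') : Rep D i w (x - x') (z - z') := by
  rw [sub_eq_add_neg, sub_eq_add_neg]
  exact h.add h'.neg

theorem Rep.smul {w v q : ℤ} (e : w + v = q) {a : (stdEven T).S w ⟶ D.R} {z z' : Laz}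
    (hz : Cob.IsWt w (MvPolynomial.C z : Cob Laz 0))
    (ha : L0 D z = HRing.of (stdEven T) D.R w a) {x : (stdEven T).S v ⟶ D.R ⊗ C}
    (h : Rep D i v x z') : Rep D i q (gsmul (ModStr.free D.R C) e a x) (z * z') := by
  obtain ⟨h1, b, h2, rfl⟩ := h
  refine ⟨by rw [map_mul, ← e]; exact hz.mul h1, gmul e a b, ?_, ?_⟩
  · rw [map_mul, ha, h2, of_mul_of e]
  · have h3 : ((ModStr.self D.R)).IsLinear (ModStr.free D.R C) (rd i D.R) := by
      have h4 : (ModStr.self D.R).act = μ[D.R] := rfl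
      have h5 : (ModStr.free D.R C).act = (α_ D.R D.R C).inv ≫ μ[D.R] ▷ C := rfl
      unfold ModStr.IsLinear rd
      rw [h4, h5, MonoidalCategory.whiskerLeft_comp, Category.assoc,
        associator_inv_naturality_right_assoc, whisker_exchange,
        rightUnitor_inv_naturality_assoc, rightUnitor_tensor_inv, Category.assoc]
    exact gsmul_comp (ModStr.self D.R) (ModStr.free D.R C) h3 e a b

variable (D)

variable (hA : MUAll D) (hC : Triangle.mk ((p : ℤ) • 𝟙 (𝟙_ T)) i δ ∈ distTriang T)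

include hA hC

theorem odd_RC (k : ℤ) (f : (𝟙_ T)⟦2 * k + 1⟧ ⟶ D.R ⊗ C) : f = 0 := by
  have h1 := hA.odd p 0 C i δ hC k (f ≫ (λ_ D.R).inv ▷ C)
  have h2 : f = (f ≫ (λ_ D.R).inv ▷ C) ≫ (λ_ D.R).hom ▷ C := by
    rw [Category.assoc, MonoidalCategory.inv_hom_whiskerRight, Category.comp_id]
  rw [h2]
  rw [show f ≫ (λ_ D.R).inv ▷ C = 0 from h1, zero_comp]

theorem exists_rep {w : ℤ} (x : (stdEven T).S w ⟶ D.R ⊗ C) : ∃ z : Laz, Rep D i w x z := by
  obtain ⟨z, b, hw, hz, hf⟩ := hA.surj p 0 C i δ hC w (x ≫ (λ_ D.R).inv ▷ C)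
  obtain ⟨y, rfl⟩ := C_surj z
  refine ⟨y, hw, b ≫ Vale.Agent.P251.I.amOne D.R, ?_, ?_⟩
  · rw [L0_eq, hz, HRing.map_of]
  · have h1 : x = (x ≫ (λ_ D.R).inv ▷ C) ≫ (λ_ D.R).hom ▷ C := by
      rw [Category.assoc, MonoidalCategory.inv_hom_whiskerRight, Category.comp_id]
    rw [h1, show x ≫ (λ_ D.R).inv ▷ C = b ≫ (ρ_ (Am D.R (0 + 1))).inv ≫
      (Am D.R (0 + 1) ◁ i) from hf]
    rw [Category.assoc, Category.assoc b, rd_naturality]
    rfl

theorem Rep.toY_eq_zero {w : ℤ} {z : Laz} (h : Rep D i w 0 z) : toY p z = 0 := by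
  obtain ⟨h1, a, h2, h3⟩ := h
  obtain ⟨y, -, hy⟩ := hA.ker p 0 C i δ hC w (MvPolynomial.C z) h1
    (a ≫ Am.v D.R (0 : Fin 1)) (by rw [← map_L0, h2, HRing.map_of]) (by
      have h4 := rd_naturality i (Am.v D.R (0 : Fin 1))
      have h5 : (a ≫ Am.v D.R (0 : Fin 1)) ≫ rd i (Am D.R (0 + 1)) = 0 := by
        rw [Category.assoc]
        refine (congrArg (a ≫ ·) h4).trans ?_
        change a ≫ rd i D.R ≫ _ = 0
        rw [← Category.assoc, ← h3, zero_comp]
      exact h5)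
  obtain ⟨y', rfl⟩ := C_surj y
  have h6 : z = (p : Laz) * y' := by
    apply MvPolynomial.C_injective (Fin 0 × ℕ) Laz
    rw [hy, map_mul, map_natCast, zsmul_eq_mul, Int.cast_natCast]
  have h7 : z ∈ RingHom.ker (toY p) := by
    rw [ker_toY, Ideal.mem_span_singleton]
    exact ⟨y', h6⟩
  exact h7

theorem Rep.unique {w : ℤ} {x : (stdEven T).S w ⟶ D.R ⊗ C} {z z' : Laz} (h : Rep D i w x z)
    (h' : Rep D i w x z') : toY p z = toY p z' := by
  have h1 := h.sub h'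
  rw [sub_self] at h1
  have h2 := Rep.toY_eq_zero D hA hC h1
  rw [map_sub] at h2
  exact sub_eq_zero.1 h2

omit hA in
theorem Rep.eq_zero {w : ℤ} {x : (stdEven T).S w ⟶ D.R ⊗ C} {z : Laz} (h : Rep D i w x z)
    (hz : toY p z = 0) : x = 0 := by
  obtain ⟨h1, a, h2, rfl⟩ := h
  have h3 : z ∈ RingHom.ker (toY p) := hz
  rw [ker_toY, Ideal.mem_span_singleton] at h3
  obtain ⟨y, hy⟩ := h3
  have h4 : HRing.of (stdEven T) D.R w a = (p : ℤ) • L0 D y := by
    rw [← h2, hy, map_mul, map_natCast, zsmul_eq_mul, Int.cast_natCast]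
  have h5 : a = (p : ℤ) • (L0 D y w : (stdEven T).S w ⟶ D.R) := by
    have h6 := congrArg (fun f : HRing (stdEven T) D.R => (f w : (stdEven T).S w ⟶ D.R)) h4
    have h7 : (HRing.of (stdEven T) D.R w a) w = a := DirectSum.of_eq_same _ _
    exact h7.symm.trans h6
  have h8 : (p : ℤ) • rd i D.R = 0 := by
    unfold rd
    have h9 : (p : ℤ) • i = 0 := by
      have h10 : ((p : ℤ) • 𝟙 (𝟙_ T)) ≫ i = 0 := comp_distTriang_mor_zero₁₂ _ hC
      rwa [Preadditive.zsmul_comp, Category.id_comp] at h10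
    rw [← Preadditive.comp_zsmul]
    have h11 : (tensorLeft D.R).map ((p : ℤ) • i) = (p : ℤ) • (tensorLeft D.R).map i :=
      Functor.map_zsmul _
    rw [h9, Functor.map_zero] at h11
    rw [show (p : ℤ) • (D.R ◁ i) = 0 from h11.symm, comp_zero]
  rw [h5, Preadditive.zsmul_comp, ← Preadditive.comp_zsmul, h8, comp_zero]

omit hA in
variable (i) in
/-- Every homogeneous polynomial comes from a class in `π_{2w} (R ⊗ C)`. -/
theorem exists_rep_toY {w : ℤ} {f : MvPolynomial ℕ (ZMod p)} (hf : f.IsWeightedHomogeneous wtm w) :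
    ∃ (x : (stdEven T).S w ⟶ D.R ⊗ C) (z : Laz), Rep D i w x z ∧ toY p z = f := by
  obtain ⟨z, hz, rfl⟩ := exists_toY p hf
  obtain ⟨a, ha⟩ := exists_of_isWt D hz
  exact ⟨a ≫ rd i D.R, z, ⟨hz, a, ha, rfl⟩, rfl⟩

/-- The homotopy ring is generated by the `y m` modulo `p`. -/
theorem exists_gen (x : HRing (stdEven T) D.R) :
    ∃ (F : MvPolynomial ℕ ℤ) (y : HRing (stdEven T) D.R),
      x = MvPolynomial.aeval (fun m => HRing.of (stdEven T) D.R (wtm m) (yMU D p m)) F +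
        (p : HRing (stdEven T) D.R) * y := by
  have key : ∃ (z : Laz) (y : HRing (stdEven T) D.R), x = L0 D z +
      (p : HRing (stdEven T) D.R) * y := by
    induction x using DirectSum.induction_on with
    | zero => exact ⟨0, 0, by simp⟩
    | add x x' hx hx' =>
      obtain ⟨z, y, rfl⟩ := hx
      obtain ⟨z', y', rfl⟩ := hx'
      exact ⟨z + z', y + y', by rw [map_add]; ring⟩
    | of w a =>
      obtain ⟨z, -, b, hz, hb⟩ := exists_rep D hA hC (a ≫ rd i D.R)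
      have h1 : (a - b) ≫ (redC i).app D.R = 0 := by
        rw [Preadditive.sub_comp, sub_eq_zero]
        exact hb
      obtain ⟨c, hc⟩ := exists_zsmul_of_red hC (a - b) h1
      refine ⟨z, HRing.of (stdEven T) D.R w c, ?_⟩
      have h2 : a = b + (p : ℤ) • c := by rw [hc, add_sub_cancel]
      change HRing.of (stdEven T) D.R w a = _
      conv_lhs => rw [h2]
      rw [hz]
      change DirectSum.of _ w _ = _
      rw [map_add, map_zsmul, zsmul_eq_mul, Int.cast_natCast]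
  obtain ⟨z, y, rfl⟩ := key
  obtain ⟨F, z', hz'⟩ := exists_aeval_zeta p z
  refine ⟨F, L0 D z' + y, ?_⟩
  have h1 : L0 D (MvPolynomial.aeval (zeta p) F) =
      MvPolynomial.aeval (fun m => HRing.of (stdEven T) D.R (wtm m) (yMU D p m)) F := by
    have h2 : (L0 D).comp (MvPolynomial.aeval (zeta p) : MvPolynomial ℕ ℤ →ₐ[ℤ] Laz).toRingHom =
        (MvPolynomial.aeval (fun m => HRing.of (stdEven T) D.R (wtm m) (yMU D p m)) :
          MvPolynomial ℕ ℤ →ₐ[ℤ] HRing (stdEven T) D.R).toRingHom := by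
      apply MvPolynomial.ringHom_ext
      · intro r
        simp
      · intro n
        change L0 D (MvPolynomial.aeval (zeta p) (MvPolynomial.X n)) =
          MvPolynomial.aeval _ (MvPolynomial.X n)
        rw [MvPolynomial.aeval_X, MvPolynomial.aeval_X, L0_zeta]
    exact DFunLike.congr_fun h2 F
  conv_lhs => rw [hz', map_add, map_mul, map_natCast, h1]
  ring

end

section ctx

variable {T : Type u} [Category.{0} T] [Preadditive T] [HasZeroObject T]
    [HasShift T ℤ] [∀ n : ℤ, (shiftFunctor T n).Additive] [Pretriangulated T] [IsTriangulated T]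
    [MonoidalCategory T] [SymmetricCategory T] [TensorTriangulated T] [MonoidalClosed T]
    [HasCoproducts.{0} T] [HasProducts.{0} T] [StableCat T]

/-- The context given by `MU` and `S/p`. -/
def Ctx.ofMU (D : MUData T) (hA : MUAll D) {C : T} {i : 𝟙_ T ⟶ C} {p : ℕ} [Fact p.Prime]
    {δ : C ⟶ (𝟙_ T)⟦(1 : ℤ)⟧} (hC : Triangle.mk ((p : ℤ) • 𝟙 (𝟙_ T)) i δ ∈ distTriang T) :
    Ctx T p where
  R := D.R
  C := C
  i := i
  δ := δ
  dist := hC
  pK := p_zero_K D.R hC (odd_RC D hA hC 0)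
  y := yMU D p

end ctx

end Vale.Agent.P221.H174
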