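import Vale.Agent.P221.H924.Alg

/-!
# P221 (helper174): generators of the coefficients of a form

`exists_poly` : modulo `(x_j, j ≥ n)`, the elements of `k[v_1, v_2, …]` are polynomials in
`v_1, …, v_n` with integral coefficients.
-/

namespace Vale.Agent.P221.H174

open Vale.Agent.P251.F Vale.Agent.P257.H80 MvPolynomial Vale.Agent.P221.H924

set_option linter.unusedSectionVars false

variable (p : ℕ) [hp : Fact p.Prime] {n : ℕ}

theorem exists_incl_of_below {j : ℕ} (hj : j ≤ n) {f : MvPolynomial ℕ (ZMod p)}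
    (hf : f ∈ below (ZMod p) j) : ∃ g, incl (n := n) (ZMod p) g = f := by
  have h1 : (f.vars : Set ℕ) ⊆ Set.range (Fin.val : Fin n → ℕ) := by
    intro i hi
    have h2 : i ∈ {i | i < j} := (mem_supported.1 hf) hi
    have h3 : i < j := h2
    exact ⟨⟨i, by omega⟩, rfl⟩
  obtain ⟨g, hg⟩ := exists_rename_eq_of_vars_subset_range f _ Fin.val_injective h1
  exact ⟨g, hg⟩

theorem exists_incl_vk (a : Fin n) : ∃ g, incl (n := n) (ZMod p) g = vk p a := by
  have h1 := tri_mem p (vk_isWH p a)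
  rw [coeff_vk, map_one, one_mul] at h1
  obtain ⟨g, hg⟩ := exists_incl_of_below p (n := n) (le_of_lt a.2) h1
  refine ⟨g + X a, ?_⟩
  rw [map_add, hg, incl, rename_X]
  ring

variable {x : ℕ → MvPolynomial ℕ (ZMod p)}
  (hx : ∀ j, n ≤ j → (x j).IsWeightedHomogeneous (wN p) (wN p j))
  (hc : ∀ j, n ≤ j → coeff (Finsupp.single j 1) (x j) ≠ 0)

include hx hc in
theorem qpi_incl_surjective :
    Function.Surjective ((qpi p hx hc).comp (incl (n := n) (ZMod p))) := by
  rw [← AlgHom.range_eq_top, eq_top_iff]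
  have h1 : Algebra.adjoin (ZMod p) (Set.range (X : Fin n → MvPolynomial (Fin n) (ZMod p))) ≤
      ((qpi p hx hc).comp (incl (n := n) (ZMod p))).range := by
    rw [Algebra.adjoin_le_iff]
    rintro _ ⟨a, rfl⟩
    obtain ⟨g, hg⟩ := exists_incl_vk p a
    refine ⟨g, ?_⟩
    change qpi p hx hc (incl (ZMod p) g) = X a
    rw [hg, qpi_vk]
  rwa [MvPolynomial.adjoin_range_X] at h1

include hx hc in
/-- generators of the quotient -/
theorem exists_poly (f : MvPolynomial ℕ (ZMod p)) : ∃ g : MvPolynomial (Fin n) ℤ,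
    f - redP p (rename (Fin.val : Fin n → ℕ) g) ∈ Ideal.span (x '' {j : ℕ | n ≤ j}) := by
  obtain ⟨g, hg⟩ := qpi_incl_surjective p hx hc (qpi p hx hc f)
  obtain ⟨g', rfl⟩ := MvPolynomial.map_surjective (Int.castRingHom (ZMod p))
    (ZMod.ringHom_surjective _) g
  refine ⟨g', ?_⟩
  have hg' : qpi p hx hc (incl (ZMod p) (map (Int.castRingHom (ZMod p)) g')) = qpi p hx hc f := hg
  rw [← qpi_eq_zero_iff p hx hc, map_sub, sub_eq_zero, ← hg', incl, redP, map_rename]

end Vale.Agent.P221.H174
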