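import Vale.Agent.P221.H924.Ex
import Vale.Agent.P221.H174.NVAlg

/-!
# P221 (helper174): non-vacuity of the definitions of the statement layer

* `isBPFinite_of_isForm` : every form `B` of `BP⟨n⟩_p` belongs to the class `IsBPFinite S p n`;
* `ne_zero_of_isForm` : every form of `BP⟨n⟩_p` is non-zero.
-/

open CategoryTheory MonoidalCategory MonObj Limits Pretriangulated

set_option linter.unusedSectionVars false

noncomputable section

namespace Vale.Agent.P221.H174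

open Vale.Agent.P251 Vale.Agent.P251.S Vale.Agent.P251.T Vale.Agent.P251.M Vale.Agent.P251.F
  Vale.Agent.P251.I EvenSpheres Vale.Agent.P257.H702 Vale.Agent.P257.H80 Vale.Agent.P251.Q
  Vale.Agent.P251.St Vale.Agent.P257.St Vale.Agent.P221.H746 Vale.Agent.P093.N0
  Vale.Agent.P221.H924

variable {T : SHCat} {S : Susp T} {p : ℕ} [hp : Fact p.Prime] {n : ℕ} {P : RingSp T}
  {o : St.Oriented S P} {φ : P257.St.GHom S p P} {D : MUData T.C}

/-- `exists_bpOut` with the map of `ℤ[v_1, v_2, …]` -/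
theorem exists_bpOut_poly (hD : MUUniv (M.lineIso S.toSpaceFunctor) D) (hA : MUAll D)
    (U : MUFam (M.lineIso S.toSpaceFunctor) D) (h : P257.St.IsBrownPeterson p o φ) :
    ∃ (b : D.R ⟶ P.obj) (_ : IsMonHom b)
      (κ : HRing (stdEven T.C) P.obj →+* MvPolynomial ℕ (ZMod p))
      (Φ : MvPolynomial ℕ ℤ →+* HRing (stdEven T.C) P.obj), BPOut D φ b κ ∧
        (∀ (n : ℕ) (y : P257.St.VPoly p n),
          Φ y = HRing.of (stdEven T.C) P.obj n ((isoE S n).inv ≫ φ n y)) ∧ κ.comp Φ = redP p := by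
  obtain ⟨b, hb, ho⟩ := U.exists_mapS o
  have hmon : IsBPMon p b := isBPMon_of_isBrownPeterson ptypOut hD U ptypIn h ho
  obtain ⟨κ, hs, hk, hl⟩ := exists_kappa hD hA hmon
  obtain ⟨Φ, hφ, hΦ⟩ := ptypOut P o φ h.typ
  have hcomp : κ.comp Φ = redP p := by
    refine kappa_comp hΦ ?_
    rw [U.lawS_eq ho]
    exact hl
  exact ⟨b, hb, κ, Φ, ⟨hmon, good_bp hD hA hmon, hs, hk, hl,
    fun n x hx hc w y => qpi_kappa_isWH hx hc hD hA hmon hl w y,
    fun x j hj => kappa_polyGen hφ hcomp hj⟩, hφ, hcomp⟩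

section span

variable {X : T.C} {a : SHCat.Hom (SHCat.ten P.obj X) X}
  {Y : Set (Σ k : ℤ, SHCat.Hom (sphere T k) X)}

theorem Span.neg {k : ℤ} {y : SHCat.Hom (sphere T k) X} (h : P221.St.Span φ n a Y k y) :
    P221.St.Span φ n a Y k (-y) := by
  have h1 := P221.St.Span.sub (P221.St.Span.zero (φ := φ) (n := n) (a := a) (Y := Y) k) h
  rwa [zero_sub] at h1

theorem Span.add {k : ℤ} {y z : SHCat.Hom (sphere T k) X} (h : P221.St.Span φ n a Y k y)
    (h' : P221.St.Span φ n a Y k z) : P221.St.Span φ n a Y k (y + z) := by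
  have h1 := P221.St.Span.sub h (Span.neg h')
  rwa [sub_neg_eq_add] at h1

theorem Span.zsmul {k : ℤ} {y : SHCat.Hom (sphere T k) X} (h : P221.St.Span φ n a Y k y) (c : ℤ) :
    P221.St.Span φ n a Y k (c • y) := by
  induction c using Int.induction_on with
  | zero =>
    rw [zero_smul]
    exact P221.St.Span.zero k
  | succ c ih =>
    rw [add_smul, one_smul]
    exact Span.add ih h
  | pred c ih =>
    rw [sub_smul, one_smul]
    exact P221.St.Span.sub ih h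

/-- `Span` for the standard even spheres -/
def SpanE (φ : P257.St.GHom S p P) (n : ℕ) (a : SHCat.Hom (SHCat.ten P.obj X) X)
    (Y : Set (Σ k : ℤ, SHCat.Hom (sphere T k) X)) (w : ℤ) (f : (stdEven T.C).S w ⟶ X) : Prop :=
  P221.St.Span φ n a Y (2 * w) ((stdSph w).inv ≫ f)

theorem SpanE.zero (w : ℤ) : SpanE φ n a Y w 0 := by
  unfold SpanE
  rw [comp_zero]
  exact P221.St.Span.zero _

theorem SpanE.add {w : ℤ} {f g : (stdEven T.C).S w ⟶ X} (hf : SpanE φ n a Y w f)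
    (hg : SpanE φ n a Y w g) : SpanE φ n a Y w (f + g) := by
  unfold SpanE
  rw [Preadditive.comp_add]
  exact Span.add hf hg

theorem SpanE.zsmul {w : ℤ} {f : (stdEven T.C).S w ⟶ X} (hf : SpanE φ n a Y w f) (c : ℤ) :
    SpanE φ n a Y w (c • f) := by
  unfold SpanE
  rw [Preadditive.comp_zsmul]
  exact Span.zsmul hf c

/-- products with `v_j` -/
theorem SpanE.gsmul (ha : P221.St.IsAct a) {j : ℕ} (h1 : 1 ≤ j) (hj : j ≤ n) {w k : ℤ}
    (h : ((p ^ j - 1 : ℕ) : ℤ) + k = w) {f : (stdEven T.C).S k ⟶ X} (hf : SpanE φ n a Y k f) :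
    SpanE φ n a Y w (gsmul (modOf ha) h ((isoE S (p ^ j - 1)).inv ≫ hazV φ j) f) := by
  unfold SpanE at hf ⊢
  let e : (𝟙_ T.C)⟦2 * w⟧ ≅ S.obj (Cn (p ^ j - 1)) ⊗ (𝟙_ T.C)⟦2 * k⟧ :=
    (stdSph w).symm ≪≫ ((stdEven T.C).mu _ _ w h).symm ≪≫
      MonoidalCategory.tensorIso (isoE S (p ^ j - 1)).symm (stdSph k)
  have h2 := P221.St.Span.mul (φ := φ) (n := n) (a := a) (Y := Y) (j := j) e.hom h1 hj
    (inferInstanceAs (IsIso e.hom)) hf
  have h3 : (stdSph w).inv ≫ EvenSpheres.gsmul (modOf ha) h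
      ((isoE S (p ^ j - 1)).inv ≫ hazV φ j) f =
      SHCat.comp e.hom (SHCat.comp (SHCat.tenHom (hazV φ j) ((stdSph k).inv ≫ f)) a) := by
    change _ = e.hom ≫ (hazV φ j ⊗ₘ ((stdSph k).inv ≫ f)) ≫ a
    unfold EvenSpheres.gsmul EvenSpheres.ext
    simp only [e, Iso.trans_hom, Iso.symm_hom, Category.assoc, MonoidalCategory.tensorIso_hom]
    rw [← Category.assoc ((isoE S (p ^ j - 1)).inv ⊗ₘ (stdSph k).hom),
      MonoidalCategory.tensorHom_comp_tensorHom, Iso.hom_inv_id_assoc]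
    rfl
  rw [h3]
  exact h2

end span

section form

variable {b : D.R ⟶ P.obj} [IsMonHom b]
  {κ : HRing (stdEven T.C) P.obj →+* MvPolynomial ℕ (ZMod p)}
  {Φ : MvPolynomial ℕ ℤ →+* HRing (stdEven T.C) P.obj}
  {x : ∀ j : ℕ, SHCat.Hom (S.obj (Cn (p ^ j - 1))) P.obj}
  {M : T.C} {i : 𝟙_ T.C ⟶ M} {δ : M ⟶ (𝟙_ T.C)⟦(1 : ℤ)⟧}
  {B : T.C} {a : SHCat.Hom (SHCat.ten P.obj B) B} {q : P.obj ⟶ B}

/-- the unit class of `B` -/
def ucl (q : P.obj ⟶ B) : Σ k : ℤ, SHCat.Hom (sphere T k) B :=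
  ⟨2 * 0, (stdSph 0).inv ≫ ((1 : HRing (stdEven T.C) P.obj) 0 : (stdEven T.C).S 0 ⟶ P.obj) ≫ q⟩

/-- polynomials in `v_1, …, v_n` with integral coefficients -/
theorem spanE_poly (hφ : ∀ (n : ℕ) (y : P257.St.VPoly p n),
      Φ y = HRing.of (stdEven T.C) P.obj n ((isoE S n).inv ≫ φ n y)) (ha : P221.St.IsAct a)
    (hq : μ[P.obj] ≫ q = (P.obj ◁ q) ≫ a) (g : MvPolynomial (Fin n) ℤ) :
    ∀ w : ℤ, SpanE φ n a {ucl q} w
      ((Φ (MvPolynomial.rename (Fin.val : Fin n → ℕ) g) w : (stdEven T.C).S w ⟶ P.obj) ≫ q) := by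
  classical
  induction g using MvPolynomial.induction_on with
  | C c =>
    intro w
    rw [MvPolynomial.rename_C]
    have h1 : Φ (MvPolynomial.C c) = c • (1 : HRing (stdEven T.C) P.obj) := by
      have h2 : (MvPolynomial.C c : MvPolynomial ℕ ℤ) = (c : MvPolynomial ℕ ℤ) := by
        rw [← eq_intCast (MvPolynomial.C (σ := ℕ) (R := ℤ)) c]
      rw [h2, map_intCast, zsmul_one]
    have h2 : ((c • (1 : HRing (stdEven T.C) P.obj) : HRing (stdEven T.C) P.obj) w :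
        (stdEven T.C).S w ⟶ P.obj) = c • ((1 : HRing (stdEven T.C) P.obj) w :
          (stdEven T.C).S w ⟶ P.obj) := DFinsupp.zsmul_apply _ _ _
    rw [h1, h2, Preadditive.zsmul_comp]
    refine SpanE.zsmul ?_ c
    by_cases hw : w = 0
    · subst hw
      exact P221.St.Span.base rfl
    · have h3 : ((1 : HRing (stdEven T.C) P.obj) w : (stdEven T.C).S w ⟶ P.obj) = 0 :=
        DirectSum.of_eq_of_ne (β := (stdEven T.C).Gr P.obj) 0 w _ hw
      rw [h3, zero_comp]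
      exact SpanE.zero w
  | add f g hf hg =>
    intro w
    rw [map_add, map_add]
    change SpanE φ n a {ucl q} w (((Φ _ w : (stdEven T.C).S w ⟶ P.obj) +
      (Φ _ w : (stdEven T.C).S w ⟶ P.obj)) ≫ q)
    rw [Preadditive.add_comp]
    exact SpanE.add (hf w) (hg w)
  | mul_X g j hg =>
    intro w
    have h1 : Φ (MvPolynomial.X (j : ℕ)) = HRing.of (stdEven T.C) P.obj
        ((p ^ ((j : ℕ) + 1) - 1 : ℕ) : ℤ)
        ((isoE S (p ^ ((j : ℕ) + 1) - 1)).inv ≫ hazV φ ((j : ℕ) + 1)) :=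
      hφ _ ⟨vEl p ((j : ℕ) + 1), vEl_mem p ((j : ℕ) + 1)⟩
    rw [map_mul, MvPolynomial.rename_X, map_mul, h1,
      mul_of_apply _ (sub_add_cancel w ((p ^ ((j : ℕ) + 1) - 1 : ℕ) : ℤ)) _,
      gmul_comm (sub_add_cancel w ((p ^ ((j : ℕ) + 1) - 1 : ℕ) : ℤ)) (by ring) _ _,
      gmul_comp_q (modOf ha) hq]
    exact SpanE.gsmul ha (by omega) (by omega) _ (hg _)

/-- **finite generation of the homotopy of a form** -/
theorem isFG_of_form (hκ : BPOut D φ b κ) (hφ : ∀ (n : ℕ) (y : P257.St.VPoly p n),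
      Φ y = HRing.of (stdEven T.C) P.obj n ((isoE S n).inv ≫ φ n y)) (hcomp : κ.comp Φ = redP p)
    (hx : ∀ j, n < j → P221.St.IsPolyGen φ j (x j)) (ha : P221.St.IsAct a)
    (hq : μ[P.obj] ≫ q = (P.obj ◁ q) ≫ a)
    (hM : Triangle.mk ((p : ℤ) • 𝟙 (𝟙_ T.C)) i δ ∈ distTriang T.C)
    (hQ : QOut n x κ ((modOf ha).tensorRight M) (q ≫ rdM i B)) : P221.St.IsFG φ n a := by
  have hx1 : ∀ j, n ≤ j → (κ (xc (xE x) j)).IsWeightedHomogeneous (wN p) (wN p j) := fun j hj =>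
    (hκ.gen x j (hx _ (Nat.lt_succ_iff.2 hj))).1
  have hx2 : ∀ j, n ≤ j → MvPolynomial.coeff (Finsupp.single j 1) (κ (xc (xE x) j)) ≠ 0 :=
    fun j hj => (hκ.gen x j (hx _ (Nat.lt_succ_iff.2 hj))).2
  refine ⟨{ucl q}, Set.finite_singleton _, fun k z => ?_⟩
  rcases Int.even_or_odd' k with ⟨w, rfl | rfl⟩
  · obtain ⟨u, hu⟩ := hQ.surj w ((stdSph w).hom ≫ z ≫ rdM i B)
    obtain ⟨g, hg⟩ := exists_poly p (x := fun j => κ (xc (xE x) j)) hx1 hx2
      (κ (HRing.of (stdEven T.C) P.obj w u))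
    have h1 : κ (HRing.of (stdEven T.C) P.obj w u - Φ (MvPolynomial.rename Fin.val g)) ∈
        Ideal.span ((fun j => κ (xc (xE x) j)) '' {j : ℕ | n ≤ j}) := by
      have h2 : κ (Φ (MvPolynomial.rename (Fin.val : Fin n → ℕ) g)) =
          redP p (MvPolynomial.rename Fin.val g) := by
        rw [← hcomp]
        rfl
      rw [map_sub, h2]
      exact hg
    obtain ⟨v, hv, a', ha'⟩ := mem_of_kappa_mem p hκ.surj hκ.ker h1
    have h4 : (HRing.of (stdEven T.C) P.obj w u) w = u :=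
      DirectSum.of_eq_same (β := (stdEven T.C).Gr P.obj) _ _
    have h5 : u = (Φ (MvPolynomial.rename (Fin.val : Fin n → ℕ) g) w :
          (stdEven T.C).S w ⟶ P.obj) + (v w : (stdEven T.C).S w ⟶ P.obj) +
        (p : ℤ) • (a' w : (stdEven T.C).S w ⟶ P.obj) := by
      have h6 : HRing.of (stdEven T.C) P.obj w u = Φ (MvPolynomial.rename Fin.val g) + v +
          (p : ℤ) • a' := by
        rw [zsmul_eq_mul, Int.cast_natCast, _root_.add_assoc, ← ha']
        ring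
      have h7 : ((p : ℤ) • a' : HRing (stdEven T.C) P.obj) w =
          (p : ℤ) • (a' w : (stdEven T.C).S w ⟶ P.obj) := DFinsupp.zsmul_apply _ _ _
      rw [← h7]
      exact h4.symm.trans (congrArg (fun t : HRing (stdEven T.C) P.obj => t w) h6)
    have h8 : (v w : (stdEven T.C).S w ⟶ P.obj) ≫ q ≫ rdM i B = 0 := by
      refine comp_q_of_mem ((modOf ha).tensorRight M) hQ.lin (s := {j | n ≤ j})
        (fun j hj => ?_) hv w
      exact (hQ.ker _ _).2 (Ideal.subset_span ⟨j, hj, rfl⟩)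
    have h9 : ((p : ℤ) • (a' w : (stdEven T.C).S w ⟶ P.obj)) ≫ q ≫ rdM i B = 0 := by
      rw [Preadditive.zsmul_comp, ← Category.assoc, ← Preadditive.zsmul_comp]
      exact ModP.zsmul_comp_eq_zero hM _
    set f : (stdEven T.C).S w ⟶ P.obj := Φ (MvPolynomial.rename (Fin.val : Fin n → ℕ) g) w with hf
    have h10 : ((stdSph w).hom ≫ z - f ≫ q) ≫ rdM i B = 0 := by
      rw [Preadditive.sub_comp, Category.assoc, Category.assoc, ← hu, h5, Preadditive.add_comp,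
        Preadditive.add_comp, h8, h9]
      abel
    obtain ⟨c, hc⟩ := ModP.exists_zsmul_of_comp_eq_zero hM _ h10
    refine ⟨(stdSph w).inv ≫ c, ?_⟩
    have h11 : z - zmul p ((stdSph w).inv ≫ c) = (stdSph w).inv ≫ f ≫ q := by
      change z - (p : ℤ) • ((stdSph w).inv ≫ c) = _
      rw [← Preadditive.comp_zsmul, ← hc, Preadditive.comp_sub, Iso.inv_hom_id_assoc]
      abel
    rw [h11]
    exact spanE_poly hφ ha hq g w
  · obtain ⟨c, hc⟩ := ModP.exists_zsmul_of_comp_eq_zero hM z (hQ.odd w _)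
    refine ⟨c, ?_⟩
    have h1 : z - zmul p c = 0 := by
      change z - (p : ℤ) • c = 0
      rw [hc, sub_self]
    rw [h1]
    exact P221.St.Span.zero _

end form

/-- **`B` itself belongs to the class `IsBPFinite`**, for every form `B` of `BP⟨n⟩_p`. -/
theorem isBPFinite_of_isForm {B : T.C} (hB : P221.St.IsForm S p n B) :
    P221.St.IsBPFinite S p n B := by
  obtain ⟨D, hD, hA, ⟨U⟩⟩ := exists_mu S.toSpaceFunctor (M.lineIso S.toSpaceFunctor)
  obtain ⟨M, i, δ, hM⟩ := exists_moore (𝒯 := T.C) (p : ℤ)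
  obtain ⟨P, o, φ, x, a, q, hP, hx, hc, ha, hq, hm⟩ := hB
  obtain ⟨b, _, κ, Φ, hκ, hφ, hcomp⟩ := exists_bpOut_poly hD hA U hP
  obtain ⟨h1, h2⟩ := hm M ⟨i, δ, hM⟩
  have h3 : QOut n x κ ((modOf ha).tensorRight M) (q ≫ rdM i B) :=
    qOut_of_mod hκ.good hκ.surj hκ.ker hM (modOf ha) hq h1 h2
  exact ⟨hc, P, o, φ, a, hP, ha, isFG_of_form hκ hφ hcomp hx ha hq hM h3⟩

/-- **Every form of `BP⟨n⟩_p` is non-zero.** -/
theorem ne_zero_of_isForm {B : T.C} (hB : P221.St.IsForm S p n B) : SHCat.ident B ≠ 0 := by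
  intro h0
  obtain ⟨D, hD, hA, ⟨U⟩⟩ := exists_mu S.toSpaceFunctor (M.lineIso S.toSpaceFunctor)
  obtain ⟨M, i, δ, hM⟩ := exists_moore (𝒯 := T.C) (p : ℤ)
  obtain ⟨-, -, L, Q, ⟨Φ⟩⟩ := exists_form' hD hA U hM hB
  have h1 : ∀ f : (stdEven T.C).S 0 ⟶ B ⊗ M, f = 0 := by
    intro f
    have h2 : 𝟙 B = 0 := h0
    have h3 : f = f ≫ (𝟙 B ▷ M) := by
      rw [MonoidalCategory.id_whiskerRight, Category.comp_id]
    rw [h3, h2, MonoidalPreadditive.zero_whiskerRight, comp_zero]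
  have h2 : (⟨1, MvPolynomial.isWeightedHomogeneous_one _ _⟩ : PH p n 0) = 0 := by
    have h3 := (Φ.Θ 0).apply_symm_apply ⟨1, MvPolynomial.isWeightedHomogeneous_one _ _⟩
    rw [h1 ((Φ.Θ 0).symm _), map_zero] at h3
    exact h3.symm
  exact one_ne_zero (congrArg Subtype.val h2)

end Vale.Agent.P221.H174
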