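import Vale.Agent.P093.N0.MU
import Vale.Agent.P221.H817.Cover
import Vale.Agent.P251.S.Coprod
import Vale.Agent.P251.S.ModP
import Vale.Agent.P251.S.ModExt
import Vale.Agent.P251.S.ModTens

/-!
# P221, block D1: modules on which `p = 0`

`R = D.R` (`MU`), `C = S/p`.

* `p_zero_K` : `p = 0` on `R ⊗ C`; `p_zero_tens` : `p = 0` on `N ⊗ C` for an `R`-module `N`;
* `exists_c` : if `p = 0` on `N`, there is a retraction `c : N ⊗ C ⟶ N` of `N ⟶ N ⊗ C`;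
* `kfun M c f : R ⊗ (X ⊗ C) ⟶ N` : the linear extension of `X ⊗ C ⟶ N ⊗ C ⟶ N`, `f : X ⟶ N`.
-/

open CategoryTheory MonoidalCategory Limits Pretriangulated MonObj
open Vale.Agent.P251.T Vale.Agent.P251.M Vale.Agent.P251.S Vale.Agent.P251.I Vale.Agent.P093.N0

universe v u

set_option linter.unusedSectionVars false

namespace Vale.Agent.P221.H174

variable {T : Type u} [Category.{v} T] [Preadditive T] [HasZeroObject T]
    [HasShift T ℤ] [∀ n : ℤ, (shiftFunctor T n).Additive] [Pretriangulated T] [IsTriangulated T]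
    [MonoidalCategory T] [SymmetricCategory T] [TensorTriangulated T] [MonoidalClosed T]
    [HasCoproducts.{0} T] [HasProducts.{0} T] [StableCat T]

/-- the reduction `X ⟶ X ⊗ C` -/
def rd {C : T} (i : 𝟙_ T ⟶ C) (X : T) : X ⟶ X ⊗ C := (ρ_ X).inv ≫ (X ◁ i)

theorem rd_naturality {C : T} (i : 𝟙_ T ⟶ C) {X Y : T} (f : X ⟶ Y) :
    f ≫ rd i Y = rd i X ≫ (f ▷ C) := (redC i).naturality f

section gen

variable {R : T} [MonObj R] {C : T} {p : ℕ} {i : 𝟙_ T ⟶ C} {δ : C ⟶ (𝟙_ T)⟦(1 : ℤ)⟧}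

variable (R) in
/-- `p = 0` on `R ⊗ C` if `π_1 (R ⊗ C) = 0`. -/
theorem p_zero_K (hC : Triangle.mk ((p : ℤ) • 𝟙 (𝟙_ T)) i δ ∈ distTriang T)
    (h1 : ∀ f : (𝟙_ T)⟦(1 : ℤ)⟧ ⟶ R ⊗ C, f = 0) : (p : ℤ) • 𝟙 (R ⊗ C) = 0 := by
  have h2 : i ≫ ((p : ℤ) • 𝟙 C) = 0 := by
    have h3 : ((p : ℤ) • 𝟙 (𝟙_ T)) ≫ i = 0 := comp_distTriang_mor_zero₁₂ _ hC
    rw [Preadditive.zsmul_comp, Category.id_comp] at h3
    rw [Preadditive.comp_zsmul, Category.comp_id, h3]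
  obtain ⟨z, hz⟩ : ∃ z : (𝟙_ T)⟦(1 : ℤ)⟧ ⟶ C, (p : ℤ) • 𝟙 C = δ ≫ z :=
    Triangle.yoneda_exact₃ _ hC _ h2
  have h4 : R ◁ z = 0 := by
    have h5 : (ModStr.free R C).ext (z ≫ ModStr.unitMap R C) = R ◁ z := by
      have h6 : R ◁ z = (ModStr.free R C).ext (ModStr.unitMap R _ ≫ R ◁ z) := by
        refine ((ModStr.free R C).ext_unitMap (R ◁ z) ?_).symm
        have h7 := ModStr.isLinear_whiskerLeft (ModStr.self R) z
        exact h7
      rw [h6]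
      congr 1
      unfold ModStr.unitMap
      rw [leftUnitor_inv_naturality_assoc, whisker_exchange, Category.assoc]
    rw [← h5, h1 (z ≫ ModStr.unitMap R C)]
    unfold ModStr.ext
    rw [MonoidalPreadditive.whiskerLeft_zero, zero_comp]
  have h8 : (p : ℤ) • 𝟙 (R ⊗ C) = R ◁ ((p : ℤ) • 𝟙 C) := by
    have h9 : (tensorLeft R).map ((p : ℤ) • 𝟙 C) = (p : ℤ) • (tensorLeft R).map (𝟙 C) :=
      Functor.map_zsmul _
    have h10 : (tensorLeft R).map (𝟙 C) = 𝟙 (R ⊗ C) := (tensorLeft R).map_id C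
    rw [h10] at h9
    exact h9.symm
  rw [h8, hz, MonoidalCategory.whiskerLeft_comp, h4, comp_zero]

omit [IsTriangulated T] [MonoidalClosed T] [HasCoproducts.{0} T] [HasProducts.{0} T]
  [StableCat T] in
theorem p_zero_whiskerRight {K : T} (h : (p : ℤ) • 𝟙 K = 0) (X : T) : (p : ℤ) • 𝟙 (K ⊗ X) = 0 := by
  have h9 : (tensorRight X).map ((p : ℤ) • 𝟙 K) = (p : ℤ) • (tensorRight X).map (𝟙 K) :=
    Functor.map_zsmul _
  rw [h, (tensorRight X).map_id, Functor.map_zero] at h9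
  exact h9.symm

theorem p_zero_of_retract {X Y : T} (h : (p : ℤ) • 𝟙 Y = 0) (a : X ⟶ Y) (b : Y ⟶ X)
    (hab : a ≫ b = 𝟙 X) : (p : ℤ) • 𝟙 X = 0 := by
  rw [← hab, ← Preadditive.zsmul_comp]
  have : (p : ℤ) • a = a ≫ ((p : ℤ) • 𝟙 Y) := by
    rw [Preadditive.comp_zsmul, Category.comp_id]
  rw [this, h, comp_zero, zero_comp]

theorem p_zero_hom {X Y : T} (h : (p : ℤ) • 𝟙 Y = 0) (a : X ⟶ Y) : (p : ℤ) • a = 0 := by
  rw [← Category.comp_id a, ← Preadditive.comp_zsmul, h, comp_zero]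

theorem p_zero_hom_src {X Y : T} (h : (p : ℤ) • 𝟙 X = 0) (a : X ⟶ Y) : (p : ℤ) • a = 0 := by
  rw [← Category.id_comp a, ← Preadditive.zsmul_comp, h, zero_comp]

/-- `p = 0` on `N ⊗ C` for an `R`-module `N`. -/
theorem p_zero_tens (h : (p : ℤ) • 𝟙 (R ⊗ C) = 0) {N : T} (M : ModStr R N) :
    (p : ℤ) • 𝟙 (N ⊗ C) = 0 := by
  have h0 : (p : ℤ) • 𝟙 ((R ⊗ C) ⊗ N) = 0 := p_zero_whiskerRight h N
  refine p_zero_of_retract h0
    (((λ_ N).inv ≫ η[R] ▷ N) ▷ C ≫ (α_ R N C).hom ≫ R ◁ (β_ N C).hom ≫ (α_ R C N).inv)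
    ((α_ R C N).hom ≫ R ◁ (β_ N C).inv ≫ (α_ R N C).inv ≫ M.act ▷ C) ?_
  simp only [Category.assoc, Iso.inv_hom_id_assoc, MonoidalCategory.whiskerLeft_hom_inv_assoc,
    Iso.hom_inv_id_assoc]
  rw [← MonoidalCategory.comp_whiskerRight, Category.assoc, M.one_act, Iso.inv_hom_id,
    MonoidalCategory.id_whiskerRight]

/-- If `p = 0` on `N`, then `N ⟶ N ⊗ C` has a retraction. -/
theorem exists_c (hC : Triangle.mk ((p : ℤ) • 𝟙 (𝟙_ T)) i δ ∈ distTriang T) {N : T}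
    (h : (p : ℤ) • 𝟙 N = 0) : ∃ c : N ⊗ C ⟶ N, rd i N ≫ c = 𝟙 N := by
  obtain ⟨c, hc⟩ : ∃ c : N ⊗ C ⟶ N, 𝟙 N = (redC i).app N ≫ c :=
    Triangle.yoneda_exact₂ _ (redTri_distinguished hC N) (𝟙 N) (by
      change ((p : ℤ) • 𝟙 N) ≫ 𝟙 N = 0
      rw [h, zero_comp])
  exact ⟨c, hc.symm⟩

end gen

section K

variable {R : T} [MonObj R] {C : T} {i : 𝟙_ T ⟶ C}

variable {N : T} (M : ModStr R N) (c : N ⊗ C ⟶ N)

/-- The linear extension of `X ⊗ C ⟶ N ⊗ C ⟶ N`, `f : X ⟶ N`. -/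
def kfun {X : T} (f : X ⟶ N) : R ⊗ (X ⊗ C) ⟶ N := M.ext ((f ▷ C) ≫ c)

theorem kfun_linear {X : T} (f : X ⟶ N) : (ModStr.free R (X ⊗ C)).IsLinear M (kfun M c f) :=
  M.ext_linear _

theorem kfun_comp {X Y : T} (g : X ⟶ Y) (f : Y ⟶ N) :
    kfun M c (g ≫ f) = (R ◁ (g ▷ C)) ≫ kfun M c f := by
  unfold kfun
  rw [M.comp_ext, MonoidalCategory.comp_whiskerRight, Category.assoc]

/-- `f` is determined by `kfun f`. -/
theorem unit_kfun (hc : rd i N ≫ c = 𝟙 N) {X : T} (f : X ⟶ N) :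
    rd i X ≫ ModStr.unitMap R (X ⊗ C) ≫ kfun M c f = f := by
  unfold kfun
  rw [M.unitMap_ext, ← Category.assoc, ← rd_naturality, Category.assoc, hc, Category.comp_id]

theorem kfun_add {X : T} (f g : X ⟶ N) : kfun M c (f + g) = kfun M c f + kfun M c g := by
  unfold kfun ModStr.ext
  rw [MonoidalPreadditive.add_whiskerRight, Preadditive.add_comp,
    MonoidalPreadditive.whiskerLeft_add, Preadditive.add_comp]

theorem kfun_zero {X : T} : kfun M c (0 : X ⟶ N) = 0 := by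
  unfold kfun ModStr.ext
  rw [MonoidalPreadditive.zero_whiskerRight, zero_comp, MonoidalPreadditive.whiskerLeft_zero,
    zero_comp]

end K

end Vale.Agent.P221.H174
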