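import Vale.Agent.P221.H174.Unit

/-!
# P221, block D1: linear maps are linear over `π_{2*} R`

If `π_{2*} R` is generated by the classes `y m` modulo `p` (`Ctx.Gen`), then every map
`φ : Lin univ (LG L) (LG L')` satisfies `φ (a x) = a φ(x)` for all `a ∈ π_{2w} R`
(`GM.Lin.f_gsmul`).
-/

open CategoryTheory MonoidalCategory Limits Pretriangulated MonObj
open Vale.Agent.P251.T Vale.Agent.P251.M Vale.Agent.P251.S Vale.Agent.P251.I Vale.Agent.P093.N0
open Vale.Agent.P251.M.EvenSpheres Vale.Agent.P251.F Vale.Agent.P251.Z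

universe u

set_option linter.unusedSectionVars false
set_option linter.unusedVariables false
set_option linter.style.haveILetI false

noncomputable section

namespace Vale.Agent.P221.H174

variable {T : Type u} [Category.{0} T] [Preadditive T] [HasZeroObject T]
    [HasShift T ℤ] [∀ n : ℤ, (shiftFunctor T n).Additive] [Pretriangulated T] [IsTriangulated T]
    [MonoidalCategory T] [SymmetricCategory T] [TensorTriangulated T] [MonoidalClosed T]
    [HasCoproducts.{0} T] [HasProducts.{0} T] [StableCat T] {p : ℕ}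

namespace Ctx

variable (c : Ctx T p)

/-- `π_{2*} R` is generated by the `y m` modulo `p`. -/
def Gen : Prop := ∀ x : HRing (stdEven T) c.R,
    ∃ (F : MvPolynomial ℕ ℤ) (y : HRing (stdEven T) c.R),
      x = MvPolynomial.aeval (fun m => HRing.of (stdEven T) c.R (wtm m) (c.y m)) F +
        (p : HRing (stdEven T) c.R) * y

theorem gen_ofMU (D : MUData T) (hA : MUAll D) {C : T} {i : 𝟙_ T ⟶ C} {p : ℕ} [Fact p.Prime]
    {δ : C ⟶ (𝟙_ T)⟦(1 : ℤ)⟧} (hC : Triangle.mk ((p : ℤ) • 𝟙 (𝟙_ T)) i δ ∈ distTriang T) :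
    (Ctx.ofMU D hA hC).Gen := exists_gen D hA hC

end Ctx

section lin

variable {c : Ctx T p} {Y Y' : T} {L : ModStr c.R Y} {L' : ModStr c.R Y'} {hp : (p : ℤ) • 𝟙 Y = 0}
  {hp' : (p : ℤ) • 𝟙 Y' = 0}

/-- the map on the total homotopy -/
def tot (φ : GM.Lin Set.univ (c.LG L hp) (c.LG L' hp')) :
    HMod (stdEven T) Y →+ HMod (stdEven T) Y' :=
  DirectSum.toAddMonoid fun n =>
    { toFun := fun x : (stdEven T).S n ⟶ Y =>
        DirectSum.of ((stdEven T).Gr Y') n (φ.f n x : (stdEven T).S n ⟶ Y')
      map_zero' := by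
        have h : (φ.f n (0 : (stdEven T).S n ⟶ Y) : (stdEven T).S n ⟶ Y') = 0 := (φ.f n).map_zero
        rw [h]
        exact (DirectSum.of ((stdEven T).Gr Y') n).map_zero
      map_add' := fun x y => by
        have h : (φ.f n (x + y : (stdEven T).S n ⟶ Y) : (stdEven T).S n ⟶ Y') =
          φ.f n x + φ.f n y := (φ.f n).map_add x y
        rw [h]
        exact (DirectSum.of ((stdEven T).Gr Y') n).map_add _ _ }

theorem tot_of (φ : GM.Lin Set.univ (c.LG L hp) (c.LG L' hp')) (n : ℤ)
    (x : (stdEven T).S n ⟶ Y) : tot φ (DirectSum.of ((stdEven T).Gr Y) n x) =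
      DirectSum.of ((stdEven T).Gr Y') n (φ.f n x : (stdEven T).S n ⟶ Y') :=
  DirectSum.toAddMonoid_of _ _ _

theorem p_hmod {Y : T} (hp : (p : ℤ) • 𝟙 Y = 0) (x : HMod (stdEven T) Y) : (p : ℤ) • x = 0 := by
  induction x using DirectSum.induction_on with
  | zero => exact smul_zero _
  | of n x =>
    rw [← map_zsmul]
    have h : (p : ℤ) • (x : (stdEven T).S n ⟶ Y) = 0 := p_zero_hom hp x
    rw [h]
    exact (DirectSum.of ((stdEven T).Gr Y) n).map_zero
  | add x y hx hy => rw [smul_add, hx, hy, add_zero]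

/-- **Linearity over `π_{2*} R`.** -/
theorem _root_.Vale.Agent.P221.GM.Lin.f_gsmul (hG : c.Gen)
    (φ : GM.Lin Set.univ (c.LG L hp) (c.LG L' hp')) {w v q : ℤ} (e : w + v = q)
    (a : (stdEven T).S w ⟶ c.R) (x : (stdEven T).S v ⟶ Y) :
    (φ.f q (gsmul L e a x : (stdEven T).S q ⟶ Y) : (stdEven T).S q ⟶ Y') =
      gsmul L' e a (φ.f v x) := by
  let := hModule (E := stdEven T) L
  let := hModule (E := stdEven T) L'
  let B : Subring (HRing (stdEven T) c.R) :=
    { carrier := {r | ∀ x : HMod (stdEven T) Y, tot φ (r • x) = r • tot φ x}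
      mul_mem' := fun {r s} hr hs x => by rw [mul_smul, hr, hs, mul_smul]
      one_mem' := fun x => by rw [one_smul, one_smul]
      add_mem' := fun {r s} hr hs x => by rw [add_smul, map_add, hr, hs, add_smul]
      zero_mem' := fun x => by rw [zero_smul, map_zero, zero_smul]
      neg_mem' := fun {r} hr x => by rw [neg_smul, map_neg, hr, neg_smul] }
  have hB : ∀ r : HRing (stdEven T) c.R, (r ∈ B ↔
    ∀ x : HMod (stdEven T) Y, tot φ (r • x) = r • tot φ x) := fun r => Iff.rfl
  have hy : ∀ m, HRing.of (stdEven T) c.R (wtm m) (c.y m) ∈ B := by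
    intro m
    rw [hB]
    intro x
    induction x using DirectSum.induction_on with
    | zero => rw [smul_zero, map_zero, smul_zero]
    | of n x =>
      have e1 := of_smul_of (E := stdEven T) L (m := wtm m) (n := n) (p := wtm m + n) rfl (c.y m) x
      have e2 := of_smul_of (E := stdEven T) L' (m := wtm m) (n := n) (p := wtm m + n) rfl (c.y m)
        (φ.f n x)
      have e3 : (φ.f (wtm m + n) (gsmul L rfl (c.y m) x : (stdEven T).S (wtm m + n) ⟶ Y) :
          (stdEven T).S (wtm m + n) ⟶ Y') = gsmul L' rfl (c.y m) (φ.f n x) :=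
        φ.comm m (Set.mem_univ _) (by change n + ((m : ℤ) + 1) = wtm m + n; ring) x
      rw [tot_of]
      refine (congrArg (tot φ) e1).trans ?_
      rw [tot_of, e3]
      exact e2.symm
    | add x y hx hy => rw [smul_add, map_add, hx, hy, map_add, smul_add]
  have hpm : ∀ r : HRing (stdEven T) c.R, (p : HRing (stdEven T) c.R) * r ∈ B := by
    intro r
    rw [hB]
    intro x
    have h1 : ∀ {N : T} (K : ModStr c.R N) (hN : (p : ℤ) • 𝟙 N = 0) (x : HMod (stdEven T) N),
        letI := hModule (E := stdEven T) K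
        ((p : HRing (stdEven T) c.R) * r) • x = 0 := by
      intro N K hN x
      let := hModule (E := stdEven T) K
      have h2 : (p : HRing (stdEven T) c.R) * r = r * (p : HRing (stdEven T) c.R) :=
        Nat.cast_comm p r
      rw [h2, mul_smul]
      have h3 : (p : HRing (stdEven T) c.R) • x = (p : ℤ) • x := by
        rw [Nat.cast_smul_eq_nsmul, natCast_zsmul]
      rw [h3, p_hmod hN, smul_zero]
    rw [h1 L hp, h1 L' hp', map_zero]
  have hall : ∀ r : HRing (stdEven T) c.R, r ∈ B := by
    intro r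
    obtain ⟨F, y, rfl⟩ := hG r
    refine B.add_mem ?_ (hpm y)
    induction F using MvPolynomial.induction_on with
    | C n =>
      rw [MvPolynomial.aeval_C]
      exact intCast_mem B n
    | add F G hF hG =>
      rw [map_add]
      exact B.add_mem hF hG
    | mul_X F n hF =>
      rw [map_mul, MvPolynomial.aeval_X]
      exact B.mul_mem hF (hy n)
  have h := (hB _).1 (hall (HRing.of (stdEven T) c.R w a)) (DirectSum.of ((stdEven T).Gr Y) v x)
  have e1 := of_smul_of (E := stdEven T) L e a x
  have e2 := of_smul_of (E := stdEven T) L' e a (φ.f v x)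
  rw [tot_of] at h
  have h' := ((congrArg (tot φ) e1).symm.trans h).trans e2
  rw [tot_of] at h'
  exact DirectSum.of_injective (β := (stdEven T).Gr Y') q h'

end lin

end Vale.Agent.P221.H174
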