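import Vale.Agent.P221.GMLem

/-!
# P221: the inverse of a bijective linear map
-/

namespace Vale.Agent.P221.GM

variable {k : Type} [CommRing k] {P : Set ℕ} {M N : GM k}

/-- the inverse of a bijective linear map -/
noncomputable def Lin.inv (f : Lin P M N) (hf : ∀ i, Function.Bijective (f.f i)) : Lin P N M where
  f i := (LinearEquiv.ofBijective (f.f i) (hf i)).symm.toLinearMap
  comm m hm {i j} h x := by
    apply (hf j).1
    rw [f.comm m hm]
    change (LinearEquiv.ofBijective (f.f j) (hf j))
      ((LinearEquiv.ofBijective (f.f j) (hf j)).symm _) = N.act m h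
      ((LinearEquiv.ofBijective (f.f i) (hf i)) ((LinearEquiv.ofBijective (f.f i) (hf i)).symm _))
    rw [LinearEquiv.apply_symm_apply, LinearEquiv.apply_symm_apply]

theorem Lin.f_inv (f : Lin P M N) (hf : ∀ i, Function.Bijective (f.f i)) (i : ℤ) (x : N.A i) :
    f.f i ((f.inv hf).f i x) = x := (LinearEquiv.ofBijective (f.f i) (hf i)).apply_symm_apply x

theorem Lin.inv_f (f : Lin P M N) (hf : ∀ i, Function.Bijective (f.f i)) (i : ℤ) (x : M.A i) :
    (f.inv hf).f i (f.f i x) = x := (LinearEquiv.ofBijective (f.f i) (hf i)).symm_apply_apply x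

theorem Lin.inv_bijective (f : Lin P M N) (hf : ∀ i, Function.Bijective (f.f i)) (i : ℤ) :
    Function.Bijective ((f.inv hf).f i) := (LinearEquiv.ofBijective (f.f i) (hf i)).symm.bijective

end Vale.Agent.P221.GM
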