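import Vale.Agent.P221.GM
import Vale.Agent.P221.H174.Base
import Mathlib.Algebra.Module.ZMod

/-!
# P221, block D1: the graded module `M(X) = π_{2*}(R ⊗ (X ⊗ C))`

* `Ctx T p` : `R`, `C = S/p`, classes `y m ∈ π_{2(m+1)} R`;
* `Ctx.LG M hp : GM (ZMod p)` : the even homotopy of an `R`-module on which `p = 0`;
* `Ctx.lin` : the map induced by a linear map;
* `Ctx.M X`, `Ctx.map f`, `Ctx.shiftM` ...;
* `Ctx.kappa : (X ⟶ N) →+ Fn (M X) (LG N) 0`.
-/

open CategoryTheory MonoidalCategory Limits Pretriangulated MonObj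
open Vale.Agent.P251.T Vale.Agent.P251.M Vale.Agent.P251.S Vale.Agent.P251.I Vale.Agent.P093.N0
open Vale.Agent.P251.M.EvenSpheres

universe u

set_option linter.unusedSectionVars false
set_option linter.unusedVariables false

noncomputable section

namespace Vale.Agent.P221.H174

variable {T : Type u} [Category.{0} T] [Preadditive T] [HasZeroObject T]
    [HasShift T ℤ] [∀ n : ℤ, (shiftFunctor T n).Additive] [Pretriangulated T] [IsTriangulated T]
    [MonoidalCategory T] [SymmetricCategory T] [TensorTriangulated T] [MonoidalClosed T]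
    [HasCoproducts.{0} T] [HasProducts.{0} T] [StableCat T]

variable (T) in
/-- A commutative monoid `R`, the cofibre `C` of `p` on the unit, with `p = 0` on `R ⊗ C`, and
classes `y m ∈ π_{2(m+1)} R`. -/
structure Ctx (p : ℕ) where
  /-- the ring spectrum -/
  R : T
  [mon : MonObj R]
  [comm : IsCommMonObj R]
  /-- the Moore object -/
  C : T
  /-- the unit -/
  i : 𝟙_ T ⟶ C
  /-- the boundary -/
  δ : C ⟶ (𝟙_ T)⟦(1 : ℤ)⟧
  dist : Triangle.mk ((p : ℤ) • 𝟙 (𝟙_ T)) i δ ∈ distTriang T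
  pK : (p : ℤ) • 𝟙 (R ⊗ C) = 0
  /-- the classes -/
  y (m : ℕ) : (stdEven T).S ((m : ℤ) + 1) ⟶ R

attribute [instance] Ctx.mon Ctx.comm

theorem gsmul_comm' {R N : T} [MonObj R] [IsCommMonObj R] (M : ModStr R N) {m n k a b l : ℤ}
    (h1 : m + k = a) (h2 : n + a = l) (h3 : n + k = b) (h4 : m + b = l)
    (x : (stdEven T).S m ⟶ R) (z : (stdEven T).S n ⟶ R) (w : (stdEven T).S k ⟶ N) :
    gsmul M h2 z (gsmul M h1 x w) = gsmul M h4 x (gsmul M h3 z w) := by
  rw [← gsmul_assoc M (m := n) (n := m) (p := k) (mn := n + m) rfl (by omega) h1 h2 z x w,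
    ← gsmul_assoc M (m := m) (n := n) (p := k) (mn := n + m) (by ring) (by omega) h3 h4 x z w,
    gmul_comm rfl (by ring) z x]

namespace Ctx

variable {p : ℕ} (c : Ctx T p)

/-- The even homotopy of an `R`-module on which `p = 0`. -/
def LG {Y : T} (L : ModStr c.R Y) (hp : (p : ℤ) • 𝟙 Y = 0) : GM (ZMod p) :=
  have hm : ∀ (i : ℤ) (x : (stdEven T).S i ⟶ Y), p • x = 0 := fun i x => by
    have := p_zero_hom hp x
    rwa [natCast_zsmul] at this
  letI : ∀ i : ℤ, Module (ZMod p) ((stdEven T).S i ⟶ Y) := fun i =>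
    AddCommGroup.zmodModule (hm i)
  { A := fun i => (stdEven T).S i ⟶ Y
    act := fun m {i j} h => AddMonoidHom.toZModLinearMap p
      { toFun := fun x => gsmul L (by omega : ((m : ℤ) + 1) + i = j) (c.y m) x
        map_zero' := by
          unfold gsmul
          rw [ext_zero_right, Limits.zero_comp]
        map_add' := fun x x' => by
          unfold gsmul
          rw [ext_add_right, Preadditive.add_comp] }
    comm := fun m n {i j j' l} h1 h2 h3 h4 x =>
      gsmul_comm' L (by omega) (by omega) (by omega) (by omega) (c.y m) (c.y n) x }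

variable {Y Y' : T} {L : ModStr c.R Y} {L' : ModStr c.R Y'} {hp : (p : ℤ) • 𝟙 Y = 0}
  {hp' : (p : ℤ) • 𝟙 Y' = 0}

/-- elements of `(LG L hp).A i` -/
def el (L : ModStr c.R Y) (hp : (p : ℤ) • 𝟙 Y = 0) (i : ℤ) :
    ((stdEven T).S i ⟶ Y) ≃+ (c.LG L hp).A i := AddEquiv.refl _

theorem act_el (m : ℕ) {i j : ℤ} (h : i + ((m : ℤ) + 1) = j) (x : (stdEven T).S i ⟶ Y) :
    (c.LG L hp).act m h (c.el L hp i x) =
      c.el L hp j (gsmul L (by omega : ((m : ℤ) + 1) + i = j) (c.y m) x) := rfl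

/-- The map induced by a linear map. -/
def lin {f : Y ⟶ Y'} (hf : L.IsLinear L' f) : GM.Lin Set.univ (c.LG L hp) (c.LG L' hp') where
  f i := AddMonoidHom.toZModLinearMap p
    { toFun := fun x : (stdEven T).S i ⟶ Y => (x ≫ f : (stdEven T).S i ⟶ Y')
      map_zero' := zero_comp
      map_add' := fun _ _ => Preadditive.add_comp .. }
  comm m _ {i j} h x := (gsmul_comp L L' hf _ (c.y m) x).symm

theorem lin_el {f : Y ⟶ Y'} (hf : L.IsLinear L' f) (i : ℤ) (x : (stdEven T).S i ⟶ Y) :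
    (c.lin (hp := hp) (hp' := hp') hf).f i (c.el L hp i x) = c.el L' hp' i (x ≫ f) := rfl

theorem p_zero_RX (X : T) : (p : ℤ) • 𝟙 (c.R ⊗ (X ⊗ c.C)) = 0 :=
  p_zero_of_retract (p_zero_tens c.pK (ModStr.free c.R X)) (α_ c.R X c.C).inv
    (α_ c.R X c.C).hom (Iso.inv_hom_id _)

/-- `M(X) = π_{2*}(R ⊗ (X ⊗ C))` -/
def M (X : T) : GM (ZMod p) := c.LG (ModStr.free c.R (X ⊗ c.C)) (c.p_zero_RX X)

theorem free_linear (R : T) [MonObj R] {X Y : T} (f : X ⟶ Y) :
    (ModStr.free R X).IsLinear (ModStr.free R Y) (R ◁ f) :=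
  ModStr.isLinear_whiskerLeft (ModStr.self R) f

/-- the map induced by `f : X ⟶ Y` -/
def map {X Y : T} (f : X ⟶ Y) : GM.Lin Set.univ (c.M X) (c.M Y) :=
  c.lin (free_linear c.R (f ▷ c.C))

theorem map_apply {X Y : T} (f : X ⟶ Y) (i : ℤ) (x : (stdEven T).S i ⟶ c.R ⊗ (X ⊗ c.C)) :
    ((c.map f).f i x : (stdEven T).S i ⟶ c.R ⊗ (Y ⊗ c.C)) = x ≫ (c.R ◁ (f ▷ c.C)) := rfl

theorem map_id (X : T) (i : ℤ) (x : (c.M X).A i) : (c.map (𝟙 X)).f i x = x := by
  refine (c.map_apply (𝟙 X) i x).trans ?_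
  rw [MonoidalCategory.id_whiskerRight, MonoidalCategory.whiskerLeft_id]
  exact Category.comp_id (X := (stdEven T).S i) x

theorem map_comp {X Y Z : T} (f : X ⟶ Y) (g : Y ⟶ Z) (i : ℤ) (x : (c.M X).A i) :
    (c.map (f ≫ g)).f i x = (c.map g).f i ((c.map f).f i x) := by
  refine (c.map_apply (f ≫ g) i x).trans ?_
  rw [MonoidalCategory.comp_whiskerRight, MonoidalCategory.whiskerLeft_comp]
  exact (Category.assoc (x : (stdEven T).S i ⟶ c.R ⊗ (X ⊗ c.C)) (c.R ◁ (f ▷ c.C))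
    (c.R ◁ (g ▷ c.C))).symm

theorem map_add {X Y : T} (f g : X ⟶ Y) (i : ℤ) (x : (c.M X).A i) :
    (c.map (f + g)).f i x = (c.map f).f i x + (c.map g).f i x := by
  refine (c.map_apply (f + g) i x).trans ?_
  rw [MonoidalPreadditive.add_whiskerRight, MonoidalPreadditive.whiskerLeft_add]
  exact Preadditive.comp_add _ _ _ (x : (stdEven T).S i ⟶ c.R ⊗ (X ⊗ c.C)) (c.R ◁ (f ▷ c.C))
    (c.R ◁ (g ▷ c.C))

theorem map_zero {X Y : T} (i : ℤ) (x : (c.M X).A i) : (c.map (0 : X ⟶ Y)).f i x = 0 := by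
  refine (c.map_apply (0 : X ⟶ Y) i x).trans ?_
  rw [MonoidalPreadditive.zero_whiskerRight, MonoidalPreadditive.whiskerLeft_zero]
  exact comp_zero (X := (stdEven T).S i)

/-! ### Exactness -/

section exact

variable {X Y Z : T} {f : X ⟶ Y} {g : Y ⟶ Z} {h : Z ⟶ X⟦(1 : ℤ)⟧}
  (H : Triangle.mk f g h ∈ distTriang T)

include H

theorem comp_eq_zero (i : ℤ) (x : (c.M X).A i) : (c.map g).f i ((c.map f).f i x) = 0 := by
  have h0 : f ≫ g = 0 := comp_distTriang_mor_zero₁₂ _ H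
  rw [← c.map_comp, h0, c.map_zero]

/-- exactness at `M(Y)` -/
theorem exact₂ (i : ℤ) (y : (c.M Y).A i) (hy : (c.map g).f i y = 0) :
    ∃ x, (c.map f).f i x = y := by
  obtain ⟨h', hd⟩ := Vale.Agent.P221.H817.dist_tensorRight H c.C
  obtain ⟨x, hx⟩ := exL₂ hd c.R (A := (stdEven T).S i) y hy
  exact ⟨x, hx.symm⟩

/-- exactness at `M(Z)` -/
theorem exact₃ (i : ℤ) (z : (c.M Z).A i) (hz : (c.map h).f i z = 0) :
    ∃ y, (c.map g).f i y = z := c.exact₂ (rot_of_distTriang _ H) i z hz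

theorem comp_eq_zero' (i : ℤ) (y : (c.M Y).A i) : (c.map h).f i ((c.map g).f i y) = 0 :=
  c.comp_eq_zero (rot_of_distTriang _ H) i y

/-- The short exact sequence `0 → M(X) → M(Y) → M(Z) → 0`, if `M(Z) → M(X⟦1⟧)` and the map
before `M(X) → M(Y)` are zero. -/
def ses' (h1 : ∀ i (x : (c.M X).A i), (c.map f).f i x = 0 → x = 0)
    (h2 : ∀ i (z : (c.M Z).A i), ∃ y, (c.map g).f i y = z) : GM.Ses (c.M X) (c.M Y) (c.M Z) where
  f := c.map f
  g := c.map g
  inj i := (injective_iff_map_eq_zero _).2 (h1 i)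
  surj i z := h2 i z
  exact i y := ⟨c.exact₂ H i y, by rintro ⟨x, rfl⟩; exact c.comp_eq_zero H i x⟩

end exact

end Ctx

end Vale.Agent.P221.H174
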