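import Vale.Agent.P221.GMLem
import Vale.Agent.P221.H174.Gen
import Vale.Agent.P251.S.RegMU

/-!
# P221, block D1: the shift isomorphism `M(X ⊗ S^{2a}) ≅ M(X)[a]`

* `sh e x : S^{2i} ⟶ R ⊗ ((X ⊗ S^{2a}) ⊗ C)` for `x : S^{2j} ⟶ R ⊗ (X ⊗ C)`, `j + a = i`;
* `Ctx.shL X a : Lin univ ((M X).shift a) (M (X ⊗ S^{2a}))`, bijective, natural;
* `Ctx.shE X a : Lin univ ((M X).shift a) (M (X⟦2a⟧))`, bijective, natural.
-/

open CategoryTheory MonoidalCategory Limits Pretriangulated MonObj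
open Vale.Agent.P251.T Vale.Agent.P251.M Vale.Agent.P251.S Vale.Agent.P251.I Vale.Agent.P093.N0
open Vale.Agent.P251.M.EvenSpheres Vale.Agent.P251.F Vale.Agent.P251.Z

universe v u

set_option linter.unusedSectionVars false
set_option linter.unusedVariables false

noncomputable section

namespace Vale.Agent.P221.H174

section mon

variable {T : Type u} [Category.{v} T] [MonoidalCategory T] [SymmetricCategory T]

/-- `(R ⊗ (X ⊗ C)) ⊗ A ≅ R ⊗ ((X ⊗ A) ⊗ C)` -/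
def shIso (R C X A : T) : (R ⊗ (X ⊗ C)) ⊗ A ≅ R ⊗ ((X ⊗ A) ⊗ C) :=
  α_ R (X ⊗ C) A ≪≫ whiskerLeftIso R (swapR X C A)

theorem swapR_naturality' {X Y : T} (f : X ⟶ Y) (C A : T) :
    (f ▷ C) ▷ A ≫ (swapR Y C A).hom = (swapR X C A).hom ≫ (f ▷ A) ▷ C := by
  unfold swapR
  simp only [Iso.trans_hom, whiskerLeftIso_hom, Iso.symm_hom, Category.assoc]
  rw [associator_naturality_left_assoc, ← whisker_exchange_assoc, associator_inv_naturality_left]

theorem shIso_naturality {X Y : T} (f : X ⟶ Y) (R C A : T) :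
    (R ◁ (f ▷ C)) ▷ A ≫ (shIso R C Y A).hom = (shIso R C X A).hom ≫ R ◁ ((f ▷ A) ▷ C) := by
  unfold shIso
  simp only [Iso.trans_hom, whiskerLeftIso_hom, Category.assoc]
  rw [associator_naturality_middle_assoc, ← MonoidalCategory.whiskerLeft_comp,
    swapR_naturality', MonoidalCategory.whiskerLeft_comp]

theorem isLinear_shIso (R : T) [MonObj R] (C X A : T) :
    ((ModStr.free R (X ⊗ C)).tensorRight A).IsLinear (ModStr.free R ((X ⊗ A) ⊗ C))
      (shIso R C X A).hom :=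
  ((ModStr.self R).isLinear_assoc (X ⊗ C) A).comp
    (ModStr.isLinear_whiskerLeft (ModStr.self R) (swapR X C A).hom)

theorem gsmul_tensorRight {E : EvenSpheres T} {R N : T} [MonObj R] (L : ModStr R N) {A : T}
    {w v a i q k : ℤ}
    (e1 : v + a = i) (e2 : w + i = q) (e3 : w + v = k) (e4 : k + a = q)
    (y : E.S w ⟶ R) (x : E.S v ⟶ N) (z : E.S a ⟶ A) :
    gsmul (L.tensorRight A) e2 y (E.ext e1 x z) = E.ext e4 (gsmul L e3 y x) z := by
  unfold gsmul
  rw [← ext_assoc e3 e4 e1 e2, ext_comp_left, Category.assoc]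
  have h : (L.tensorRight A).act = (α_ R N A).inv ≫ L.act ▷ A := rfl
  rw [h, Iso.hom_inv_id_assoc]

/-- the generator -/
theorem unit_shIso (R : T) [MonObj R] {C : T} (i : 𝟙_ T ⟶ C) (A : T) :
    (λ_ A).inv ≫ (rd i (𝟙_ T) ≫ ModStr.unitMap R (𝟙_ T ⊗ C)) ▷ A ≫ (shIso R C (𝟙_ T) A).hom ≫
      R ◁ ((λ_ A).hom ▷ C) = rd i A ≫ ModStr.unitMap R (A ⊗ C) := by
  have h1 : ((λ_ (𝟙_ T ⊗ C)).inv ≫ (η[R] ▷ (𝟙_ T ⊗ C))) ▷ A ≫ (α_ R (𝟙_ T ⊗ C) A).hom =
      (λ_ ((𝟙_ T ⊗ C) ⊗ A)).inv ≫ η[R] ▷ ((𝟙_ T ⊗ C) ⊗ A) := by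
    rw [MonoidalCategory.comp_whiskerRight, Category.assoc, associator_naturality_left]
    simp
  have h2 : (λ_ A).inv ≫ (rd i (𝟙_ T)) ▷ A ≫ (swapR (𝟙_ T) C A).hom ≫ (λ_ A).hom ▷ C =
      rd i A := by
    unfold rd swapR
    simp only [Iso.trans_hom, whiskerLeftIso_hom, Iso.symm_hom, Category.assoc,
      MonoidalCategory.comp_whiskerRight]
    rw [associator_naturality_middle_assoc, ← MonoidalCategory.whiskerLeft_comp_assoc,
      BraidedCategory.braiding_naturality_left, MonoidalCategory.whiskerLeft_comp_assoc,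
      associator_inv_naturality_right_assoc, whisker_exchange]
    simp [braiding_tensorUnit_left]
  unfold ModStr.unitMap shIso
  simp only [Iso.trans_hom, whiskerLeftIso_hom, Category.assoc]
  rw [MonoidalCategory.comp_whiskerRight, Category.assoc, reassoc_of% h1,
    ← whisker_exchange_assoc, leftUnitor_inv_naturality_assoc]
  rw [← whisker_exchange, ← leftUnitor_inv_naturality_assoc, ← leftUnitor_inv_naturality_assoc,
    ← leftUnitor_inv_naturality_assoc, reassoc_of% h2]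

end mon

variable {T : Type u} [Category.{0} T] [Preadditive T] [HasZeroObject T]
    [HasShift T ℤ] [∀ n : ℤ, (shiftFunctor T n).Additive] [Pretriangulated T] [IsTriangulated T]
    [MonoidalCategory T] [SymmetricCategory T] [TensorTriangulated T] [MonoidalClosed T]
    [HasCoproducts.{0} T] [HasProducts.{0} T] [StableCat T] {p : ℕ}

/-- `x ⊗ S^{2a}` -/
def sh {R C X : T} {i j a : ℤ} (e : j + a = i) (x : (stdEven T).S j ⟶ R ⊗ (X ⊗ C)) :
    (stdEven T).S i ⟶ R ⊗ ((X ⊗ (stdEven T).S a) ⊗ C) :=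
  (stdEven T).ext e x (𝟙 ((stdEven T).S a)) ≫ (shIso R C X ((stdEven T).S a)).hom

theorem sh_eq {R C X : T} {i j a : ℤ} (e : j + a = i) (x : (stdEven T).S j ⟶ R ⊗ (X ⊗ C)) :
    sh e x = ((stdEven T).mu j a i e).inv ≫ x ▷ ((stdEven T).S a) ≫
      (shIso R C X ((stdEven T).S a)).hom := by
  unfold sh EvenSpheres.ext
  rw [tensorHom_id, Category.assoc]

theorem sh_injective {R C X : T} {i j a : ℤ} (e : j + a = i)
    {x x' : (stdEven T).S j ⟶ R ⊗ (X ⊗ C)} (h : sh e x = sh e x') : x = x' := by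
  rw [sh_eq, sh_eq, cancel_epi, cancel_mono] at h
  exact whiskerRight_inj _ h

theorem sh_surjective {R C X : T} {i j a : ℤ} (e : j + a = i)
    (y : (stdEven T).S i ⟶ R ⊗ ((X ⊗ (stdEven T).S a) ⊗ C)) :
    ∃ x : (stdEven T).S j ⟶ R ⊗ (X ⊗ C), sh e x = y := by
  obtain ⟨x, hx⟩ := whiskerRight_surj ((stdEven T).S a)
    (((stdEven T).mu j a i e).hom ≫ y ≫ (shIso R C X ((stdEven T).S a)).inv)
  refine ⟨x, ?_⟩
  rw [sh_eq, hx]
  simp

theorem sh_add {R C X : T} {i j a : ℤ} (e : j + a = i)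
    (x x' : (stdEven T).S j ⟶ R ⊗ (X ⊗ C)) : sh e (x + x') = sh e x + sh e x' := by
  unfold sh
  rw [ext_add_left, Preadditive.add_comp]

theorem sh_zero {R C X : T} {i j a : ℤ} (e : j + a = i) :
    sh e (0 : (stdEven T).S j ⟶ R ⊗ (X ⊗ C)) = 0 := by
  unfold sh
  rw [ext_zero_left, zero_comp]

theorem sh_gsmul {R C X : T} [MonObj R] {w v a i q k : ℤ} (e1 : v + a = i) (e2 : w + i = q)
    (e3 : w + v = k) (e4 : k + a = q) (y : (stdEven T).S w ⟶ R)
    (x : (stdEven T).S v ⟶ R ⊗ (X ⊗ C)) :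
    gsmul (ModStr.free R ((X ⊗ (stdEven T).S a) ⊗ C)) e2 y (sh e1 x) =
      sh e4 (gsmul (ModStr.free R (X ⊗ C)) e3 y x) := by
  unfold sh
  rw [gsmul_comp ((ModStr.free R (X ⊗ C)).tensorRight ((stdEven T).S a)) _ (isLinear_shIso R C X _),
    gsmul_tensorRight _ e1 e2 e3 e4]

theorem sh_naturality {R C X Y : T} {i j a : ℤ} (e : j + a = i) (f : X ⟶ Y)
    (x : (stdEven T).S j ⟶ R ⊗ (X ⊗ C)) :
    sh e (x ≫ R ◁ (f ▷ C)) = sh e x ≫ R ◁ ((f ▷ (stdEven T).S a) ▷ C) := by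
  unfold sh
  rw [ext_comp_left, Category.assoc, Category.assoc, shIso_naturality]

namespace Ctx

variable (c : Ctx T p)

/-- the shift isomorphism `M(X)[a] ≅ M(X ⊗ S^{2a})` -/
def shL (X : T) (a : ℤ) : GM.Lin Set.univ ((c.M X).shift a) (c.M (X ⊗ (stdEven T).S a)) where
  f i := AddMonoidHom.toZModLinearMap p
    { toFun := fun x : (stdEven T).S (i - a) ⟶ c.R ⊗ (X ⊗ c.C) =>
        (sh (sub_add_cancel i a) x : (stdEven T).S i ⟶ c.R ⊗ ((X ⊗ (stdEven T).S a) ⊗ c.C))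
      map_zero' := sh_zero _
      map_add' := sh_add _ }
  comm m _ {i j} h x := (sh_gsmul (sub_add_cancel i a) (by omega) (by omega)
    (sub_add_cancel j a) (c.y m) x).symm

theorem shL_apply (X : T) (a i : ℤ) (x : (stdEven T).S (i - a) ⟶ c.R ⊗ (X ⊗ c.C)) :
    ((c.shL X a).f i x : (stdEven T).S i ⟶ c.R ⊗ ((X ⊗ (stdEven T).S a) ⊗ c.C)) =
      sh (sub_add_cancel i a) x := rfl

theorem shL_bijective (X : T) (a i : ℤ) : Function.Bijective ((c.shL X a).f i) := by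
  constructor
  · intro x x' h
    exact sh_injective (sub_add_cancel i a) h
  · intro y
    exact sh_surjective (sub_add_cancel i a) y

theorem shL_naturality {X Y : T} (f : X ⟶ Y) (a i : ℤ) (x : (c.M X).A (i - a)) :
    (c.shL Y a).f i ((c.map f).f (i - a) x) =
      (c.map (f ▷ (stdEven T).S a)).f i ((c.shL X a).f i x) :=
  sh_naturality (sub_add_cancel i a) f x

/-- `X ⊗ S^{2a} ≅ X⟦2a⟧` -/
def _root_.Vale.Agent.P221.H174.shN (a : ℤ) :
    tensorRight ((stdEven T).S a) ≅ shiftFunctor T (2 * a) :=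
  (stdEven T).shiftNat (Iso.refl _) a

theorem map_iso_bijective {X Y : T} (e : X ≅ Y) (i : ℤ) : Function.Bijective ((c.map e.hom).f i) := by
  refine Function.bijective_iff_has_inverse.2 ⟨(c.map e.inv).f i, fun x => ?_, fun x => ?_⟩
  · rw [← c.map_comp, Iso.hom_inv_id, c.map_id]
  · rw [← c.map_comp, Iso.inv_hom_id, c.map_id]

/-- the shift isomorphism `M(X)[a] ≅ M(X⟦2a⟧)` -/
def shE (X : T) (a : ℤ) : GM.Lin Set.univ ((c.M X).shift a) (c.M (X⟦2 * a⟧)) :=
  (c.shL X a).comp (c.map ((shN a).hom.app X))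

theorem shE_bijective (X : T) (a i : ℤ) : Function.Bijective ((c.shE X a).f i) :=
  (c.map_iso_bijective ((shN a).app X) i).comp (c.shL_bijective X a i)

theorem shE_naturality {X Y : T} (f : X ⟶ Y) (a i : ℤ) (x : (c.M X).A (i - a)) :
    (c.shE Y a).f i ((c.map f).f (i - a) x) =
      (c.map (f⟦2 * a⟧')).f i ((c.shE X a).f i x) := by
  change (c.map ((shN a).hom.app Y)).f i ((c.shL Y a).f i ((c.map f).f (i - a) x)) =
    (c.map (f⟦2 * a⟧')).f i ((c.map ((shN a).hom.app X)).f i ((c.shL X a).f i x))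
  rw [c.shL_naturality, ← c.map_comp, ← c.map_comp]
  congr 2
  exact congrArg c.map ((shN a).hom.naturality f)

end Ctx

end Vale.Agent.P221.H174
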