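import Vale.Agent.P221.H174.Shift
import Vale.Agent.P221.H509.Op

/-!
# P221, block D1: the shift isomorphism commutes with the operators

* `Ctx.shOM X a : OM.Iso ((OM X).shift a) (OM (X⟦2a⟧))`.
-/

open CategoryTheory MonoidalCategory Limits Pretriangulated MonObj
open Vale.Agent.P251.T Vale.Agent.P251.M Vale.Agent.P251.S Vale.Agent.P251.I Vale.Agent.P093.N0
open Vale.Agent.P251.M.EvenSpheres Vale.Agent.P251.F Vale.Agent.P251.Z

universe v u

set_option linter.unusedSectionVars false
set_option linter.unusedVariables false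

noncomputable section

namespace Vale.Agent.P221.H174

variable {T : Type u} [Category.{0} T] [Preadditive T] [HasZeroObject T]
    [HasShift T ℤ] [∀ n : ℤ, (shiftFunctor T n).Additive] [Pretriangulated T] [IsTriangulated T]
    [MonoidalCategory T] [SymmetricCategory T] [TensorTriangulated T] [MonoidalClosed T]
    [HasCoproducts.{0} T] [HasProducts.{0} T] [StableCat T] {p : ℕ}

/-- the operators act from the left, the shift from the right -/
theorem opw_sh {R C X : T} {j v a i l k : ℤ} (e : (stdEven T).S j ⊗ R ⟶ R)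
    (e1 : v + a = i) (e2 : j + i = l) (e3 : j + v = k) (e4 : k + a = l)
    (x : (stdEven T).S v ⟶ R ⊗ (X ⊗ C)) :
    opw e e2 (sh e1 x) = sh e4 (opw e e3 x) := by
  unfold sh shIso
  simp only [Iso.trans_hom, whiskerLeftIso_hom]
  rw [← Category.assoc, opw_comp, ← Category.assoc]
  congr 1
  unfold opw
  rw [ext_comp_right, ← ext_assoc e3 e4 e1 e2, ext_comp_left]
  simp only [Category.assoc, MonoidalCategory.comp_whiskerRight]
  congr 1
  rw [associator_naturality_left]
  have h : (α_ ((stdEven T).S j) (R ⊗ (X ⊗ C)) ((stdEven T).S a)).hom ≫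
      (stdEven T).S j ◁ (α_ R (X ⊗ C) ((stdEven T).S a)).hom ≫
        (α_ ((stdEven T).S j) R ((X ⊗ C) ⊗ (stdEven T).S a)).inv =
      (α_ ((stdEven T).S j) R (X ⊗ C)).inv ▷ (stdEven T).S a ≫
        (α_ ((stdEven T).S j ⊗ R) (X ⊗ C) ((stdEven T).S a)).hom := by monoidal
  rw [reassoc_of% h]

namespace Ctx

variable (c : Ctx T p)

/-- the shift isomorphism with the operators -/
def shOM (X : T) (a : ℤ) : OM.Iso ((c.OM X).shift a) (c.OM (X⟦2 * a⟧)) where
  f :=
    { f :=
        { f := (c.shE X a).f
          comm := fun m hm _ _ h x => (c.shE X a).comm m hm h x }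
      op_comm := fun o i j h x => by
        have h1 : o.1 + (i - a) = j - a := by
          have h' : i + o.1 = j := h
          omega
        have h2 := opw_sh o.2 (sub_add_cancel i a) (dego_eq h) h1 (sub_add_cancel j a)
          (x : (stdEven T).S (i - a) ⟶ c.R ⊗ (X ⊗ c.C))
        have h3 := opw_comp o.2 (dego_eq h)
          (sh (sub_add_cancel i a) (x : (stdEven T).S (i - a) ⟶ c.R ⊗ (X ⊗ c.C)))
          ((shN a).hom.app X ▷ c.C)
        refine Eq.symm (Eq.trans h3 ?_)
        rw [h2]
        rfl }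
  bij i := c.shE_bijective X a i

/-- **The shift isomorphism.** -/
theorem shiftM (X : T) (a b : ℤ) (hb : b = 2 * a) :
    Nonempty (OM.Iso (c.OM (X⟦b⟧)) ((c.OM X).shift a)) := by
  subst hb
  exact ⟨(c.shOM X a).symm⟩

end Ctx

end Vale.Agent.P221.H174
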