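import Vale.Agent.P221.H174.Shift
import Vale.Agent.P221.H174.LinInv
import Vale.Agent.P221.H521.Base
import Vale.Agent.P221.H520.Good

/-!
# P221, block D1: spheres are good

* `Ctx.Reg c` : the properties of `MU` and `S/p` which are used: `π_odd (R ⊗ C) = 0`, `π_{2*} R` is
  generated by the `y m` modulo `p` and maps onto `π_{2*} (R ⊗ C)`, which is `k[Y_0, Y_1, …]`;
* `reg_ofMU`;
* `Ctx.Reg.good_sphere` : `Good0 t (𝟙⟦k⟧)`, if `π_odd N = 0`.
-/

open CategoryTheory MonoidalCategory Limits Pretriangulated MonObj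
open Vale.Agent.P251.T Vale.Agent.P251.M Vale.Agent.P251.S Vale.Agent.P251.I Vale.Agent.P093.N0
open Vale.Agent.P251.M.EvenSpheres Vale.Agent.P251.F Vale.Agent.P251.Z
open Vale.Agent.P221.H520 Vale.Agent.P221.H817

universe v u

set_option linter.unusedSectionVars false
set_option linter.unusedVariables false

noncomputable section

namespace Vale.Agent.P221.H174

variable {T : Type u} [Category.{0} T] [Preadditive T] [HasZeroObject T]
    [HasShift T ℤ] [∀ n : ℤ, (shiftFunctor T n).Additive] [Pretriangulated T] [IsTriangulated T]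
    [MonoidalCategory T] [SymmetricCategory T] [TensorTriangulated T] [MonoidalClosed T]
    [HasCoproducts.{0} T] [HasProducts.{0} T] [StableCat T] {p : ℕ}

/-- The properties of the context given by `MU` and `S/p`. -/
structure Ctx.Reg (c : Ctx T p) : Prop where
  gen : c.Gen
  odd (k : ℤ) (f : (𝟙_ T)⟦2 * k + 1⟧ ⟶ c.R ⊗ c.C) : f = 0
  lift {w : ℤ} (x : (stdEven T).S w ⟶ c.R ⊗ c.C) : ∃ a : (stdEven T).S w ⟶ c.R, x = a ≫ rd c.i c.R
  free : ∃ e : GM.Lin Set.univ (c.LG (ModStr.free c.R c.C) c.pK) (GM.Lg (ZMod p)),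
    ∀ i, Function.Bijective (e.f i)

theorem reg_ofMU (D : MUData T) (hA : MUAll D) {C : T} {i : 𝟙_ T ⟶ C} {p : ℕ} [Fact p.Prime]
    {δ : C ⟶ (𝟙_ T)⟦(1 : ℤ)⟧} (hC : Triangle.mk ((p : ℤ) • 𝟙 (𝟙_ T)) i δ ∈ distTriang T) :
    (Ctx.ofMU D hA hC).Reg where
  gen := Ctx.gen_ofMU D hA hC
  odd := odd_RC D hA hC
  lift x := by
    obtain ⟨z, -, a, -, h⟩ := exists_rep D hA hC x
    exact ⟨a, h⟩
  free := by
    choose z hz using fun (w : ℤ) (x : (stdEven T).S w ⟶ D.R ⊗ C) => exists_rep D hA hC x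
    let g : ∀ w, ((stdEven T).S w ⟶ D.R ⊗ C) →
        MvPolynomial.weightedHomogeneousSubmodule (ZMod p) wtm w :=
      fun w x => ⟨toY p (z w x), isWH_toY p (hz w x).wt⟩
    have g_eq : ∀ w x (z' : Laz) (h : Rep D i w x z'),
        (g w x : MvPolynomial ℕ (ZMod p)) = toY p z' := fun w x z' h =>
      Rep.unique D hA hC (hz w x) h
    let e : GM.Lin Set.univ ((Ctx.ofMU D hA hC).LG (ModStr.free D.R C) (Ctx.ofMU D hA hC).pK)
        (GM.Lg (ZMod p)) :=
      { f := fun w => AddMonoidHom.toZModLinearMap p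
          { toFun := fun x : (stdEven T).S w ⟶ D.R ⊗ C => (g w x : (GM.Lg (ZMod p)).A w)
            map_zero' := by
              apply Subtype.ext
              have h0 : Rep D i w 0 0 := ⟨by rw [map_zero]; exact Cob.isWt_zero _, 0, by
                rw [map_zero]
                exact ((DirectSum.of ((stdEven T).Gr D.R) w).map_zero).symm, by rw [zero_comp]⟩
              exact (g_eq w 0 0 h0).trans (map_zero _)
            map_add' := fun x y => by
              apply Subtype.ext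
              exact (g_eq w (x + y) _ ((hz w x).add (hz w y))).trans (map_add _ _ _) }
        comm := fun m _ {w v} h x => by
          apply Subtype.ext
          have h1 := (hz w x).smul (q := v) (by rw [← h, add_comm] : wtm m + w = v) (isWt_zeta p m)
            (L0_zeta D m)
          refine (g_eq v _ _ h1).trans ?_
          rw [map_mul, toY_zeta]
          rfl }
    refine ⟨e, fun w => ⟨?_, ?_⟩⟩
    · refine (injective_iff_map_eq_zero (e.f w)).2 fun x hx => ?_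
      have h1 : toY p (z w x) = 0 := congrArg Subtype.val hx
      exact Rep.eq_zero D hC (hz w x) h1
    · rintro ⟨f, hf⟩
      obtain ⟨x, z', h1, h2⟩ := exists_rep_toY D i hC hf
      refine ⟨x, ?_⟩
      apply Subtype.ext
      exact (g_eq w x z' h1).trans h2

namespace Ctx

variable (c : Ctx T p)

/-- the generator of `M(S^{2n})` -/
def gn (X : T) : X ⟶ c.R ⊗ (X ⊗ c.C) := rd c.i X ≫ ModStr.unitMap c.R (X ⊗ c.C)

theorem gn_naturality {X Y : T} (f : X ⟶ Y) : f ≫ c.gn Y = c.gn X ≫ c.R ◁ (f ▷ c.C) := by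
  unfold gn ModStr.unitMap
  rw [← Category.assoc, rd_naturality, Category.assoc, Category.assoc,
    leftUnitor_inv_naturality_assoc, whisker_exchange]
  simp

theorem ext_gn (X : T) :
    (ModStr.free c.R (X ⊗ c.C)).ext (c.gn X) = c.R ◁ rd c.i X := by
  unfold gn
  rw [← ModStr.comp_ext]
  have h := (ModStr.free c.R (X ⊗ c.C)).ext_unitMap (𝟙 _) (ModStr.IsLinear.id _)
  rw [Category.comp_id] at h
  rw [h, Category.comp_id]

/-- the class of `1` in `M(𝟙)` -/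
theorem exists_smul_unit (h : c.Reg) {w : ℤ} (x : (stdEven T).S w ⟶ c.R ⊗ (𝟙_ T ⊗ c.C)) :
    ∃ a : (stdEven T).S w ⟶ c.R, x = gsmul (ModStr.free c.R (𝟙_ T ⊗ c.C)) (add_zero w) a
      ((stdEven T).zero.inv ≫ c.gn (𝟙_ T)) := by
  obtain ⟨a, ha⟩ := h.lift (x ≫ c.R ◁ (λ_ c.C).hom)
  refine ⟨a, ?_⟩
  have h1 : x = (x ≫ c.R ◁ (λ_ c.C).hom) ≫ c.R ◁ (λ_ c.C).inv := by
    rw [Category.assoc, ← MonoidalCategory.whiskerLeft_comp, Iso.hom_inv_id,
      MonoidalCategory.whiskerLeft_id]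
    exact (Category.comp_id _).symm
  rw [h1, ha]
  unfold gsmul
  rw [ext_one, Category.assoc, Category.assoc, Category.assoc]
  congr 1
  have h2 := c.ext_gn (𝟙_ T)
  unfold ModStr.ext at h2
  rw [h2]
  have h3 : rd c.i (𝟙_ T) = c.i ≫ (λ_ c.C).inv := by
    unfold rd
    rw [← unitors_inv_equal, leftUnitor_inv_naturality]
  rw [h3]
  unfold rd
  rw [MonoidalCategory.whiskerLeft_comp, Category.assoc]

/-- `M(S^{2n})` is generated by the class of the identity -/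
theorem exists_smul_sph (h : c.Reg) (n : ℤ) {i : ℤ}
    (x : (stdEven T).S i ⟶ c.R ⊗ ((stdEven T).S n ⊗ c.C)) :
    ∃ a : (stdEven T).S (i - n) ⟶ c.R,
      x = gsmul (ModStr.free c.R ((stdEven T).S n ⊗ c.C)) (sub_add_cancel i n) a
        (c.gn ((stdEven T).S n)) := by
  obtain ⟨x', hx'⟩ := sh_surjective (sub_add_cancel i n)
    (x ≫ c.R ◁ ((λ_ ((stdEven T).S n)).inv ▷ c.C))
  obtain ⟨a, rfl⟩ := c.exists_smul_unit h x'
  refine ⟨a, ?_⟩
  have h1 : x = (x ≫ c.R ◁ ((λ_ ((stdEven T).S n)).inv ▷ c.C)) ≫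
      c.R ◁ ((λ_ ((stdEven T).S n)).hom ▷ c.C) := by
    rw [Category.assoc, ← MonoidalCategory.whiskerLeft_comp, ← MonoidalCategory.comp_whiskerRight,
      Iso.inv_hom_id, MonoidalCategory.id_whiskerRight, MonoidalCategory.whiskerLeft_id]
    exact (Category.comp_id _).symm
  rw [h1, ← hx', ← sh_gsmul (zero_add n) (sub_add_cancel i n) (add_zero (i - n)),
    ← gsmul_comp _ (ModStr.free c.R ((stdEven T).S n ⊗ c.C)) (free_linear c.R _)]
  congr 1
  unfold sh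
  rw [one_ext]
  have h2 := unit_shIso c.R c.i ((stdEven T).S n)
  simp only [Category.assoc] at h2 ⊢
  rw [Category.id_comp]
  exact h2

theorem gn_kfun (t : Tgt c) {X : T} (f : X ⟶ t.N) : c.gn X ≫ kfun t.L t.r f = f := by
  unfold gn
  rw [Category.assoc]
  exact unit_kfun t.L t.r t.hr f

/-- `M(𝟙)` is free -/
theorem proj_unit (h : c.Reg) (P : Set ℕ) : GM.Proj P (c.M (𝟙_ T)) := by
  obtain ⟨e, he⟩ := h.free
  have h1 : (ModStr.free c.R (𝟙_ T ⊗ c.C)).IsLinear (ModStr.free c.R c.C)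
      (c.R ◁ (λ_ c.C).hom) := free_linear c.R _
  let f : GM.Lin Set.univ (c.M (𝟙_ T)) (c.LG (ModStr.free c.R c.C) c.pK) := c.lin h1
  have hf : ∀ i, Function.Bijective (f.f i) := by
    intro i
    have h2 : ∀ x : (stdEven T).S i ⟶ c.R ⊗ (𝟙_ T ⊗ c.C),
        (f.f i x : (stdEven T).S i ⟶ c.R ⊗ c.C) = x ≫ c.R ◁ (λ_ c.C).hom := fun x => rfl
    constructor
    · intro x y hxy
      have h3 : (x : (stdEven T).S i ⟶ c.R ⊗ (𝟙_ T ⊗ c.C)) ≫ c.R ◁ (λ_ c.C).hom =
        (y : (stdEven T).S i ⟶ c.R ⊗ (𝟙_ T ⊗ c.C)) ≫ c.R ◁ (λ_ c.C).hom := hxy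
      exact (cancel_mono (c.R ◁ (λ_ c.C).hom)).1 h3
    · intro y
      refine ⟨((y : (stdEven T).S i ⟶ c.R ⊗ c.C) ≫ c.R ◁ (λ_ c.C).inv :
        (stdEven T).S i ⟶ c.R ⊗ (𝟙_ T ⊗ c.C)), ?_⟩
      have h3 : ∀ y : (stdEven T).S i ⟶ c.R ⊗ c.C,
          (y ≫ c.R ◁ (λ_ c.C).inv) ≫ c.R ◁ (λ_ c.C).hom = y := fun y => by
        rw [Category.assoc, ← MonoidalCategory.whiskerLeft_comp, Iso.inv_hom_id,
          MonoidalCategory.whiskerLeft_id]
        exact Category.comp_id _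
      exact h3 y
  exact GM.Proj.of_iso ((f.comp e).mono (Set.subset_univ _)) (fun i => (he i).comp (hf i))
    (GM.Lg_proj _ P)

/-- `M(S^{2n})` is free -/
theorem proj_sph (h : c.Reg) (n : ℤ) (P : Set ℕ) : GM.Proj P (c.M ((stdEven T).S n)) := by
  have h1 : GM.Proj P (c.M (𝟙_ T ⊗ (stdEven T).S n)) := by
    have h2 : GM.Proj P ((c.M (𝟙_ T)).shift n) := (c.proj_unit h P).shift n
    have h3 : ∀ i, Function.Bijective ((c.shL (𝟙_ T) n).f i) := c.shL_bijective (𝟙_ T) n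
    let f := (c.shL (𝟙_ T) n).inv h3
    have h4 : ∀ i, Function.Bijective (f.f i) := GM.Lin.inv_bijective _ h3
    exact GM.Proj.of_iso (f.mono (Set.subset_univ P)) h4 h2
  exact proj_of_iso (λ_ _) h1

theorem kInj_sph (t : Tgt c) (n : ℤ) : t.KInj ((stdEven T).S n) := by
  intro f hf
  have h1 : ((t.kap f).f n (c.gn ((stdEven T).S n) : (stdEven T).S n ⟶
      c.R ⊗ ((stdEven T).S n ⊗ c.C)) : (stdEven T).S n ⟶ t.N) = f := c.gn_kfun t f
  rw [hf] at h1
  exact h1.symm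

theorem kSurj_sph (h : c.Reg) (t : Tgt c) (n : ℤ) : t.KSurj ((stdEven T).S n) := by
  intro φ
  let g : (stdEven T).S n ⟶ c.R ⊗ ((stdEven T).S n ⊗ c.C) := c.gn ((stdEven T).S n)
  have h1 : ((t.kap (φ.f n g : (stdEven T).S n ⟶ t.N)).f n g : (stdEven T).S n ⟶ t.N) = φ.f n g :=
    c.gn_kfun t _
  refine ⟨(φ.f n g : (stdEven T).S n ⟶ t.N), GM.Lin.ext fun i x => ?_⟩
  obtain ⟨a, rfl⟩ := c.exists_smul_sph h n x
  have h2 := (t.kap (φ.f n g : (stdEven T).S n ⟶ t.N)).f_gsmul h.gen (sub_add_cancel i n) a g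
  have h3 := φ.f_gsmul h.gen (sub_add_cancel i n) a g
  exact h2.trans (Eq.trans (congrArg (gsmul t.L (sub_add_cancel i n) a) h1) h3.symm)

end Ctx

variable {c : Ctx T p}

/-- **Even spheres are good.** -/
theorem Ctx.Reg.good_S (h : c.Reg) (t : Tgt c) (n : ℤ) : Good0 t ((stdEven T).S n) :=
  ⟨fun P => c.proj_sph h n P, c.kInj_sph t n, c.kSurj_sph h t n⟩

/-- **Spheres are good**, if the odd homotopy of `N` vanishes. -/
theorem Ctx.Reg.good_sphere (h : c.Reg) (t : Tgt c)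
    (hN : ∀ (k : ℤ) (f : (𝟙_ T)⟦2 * k + 1⟧ ⟶ t.N), f = 0) (k : ℤ) : Good0 t ((𝟙_ T)⟦k⟧) := by
  rcases Int.even_or_odd' k with ⟨n, rfl | rfl⟩
  · exact (h.good_S t n).of_iso ((stdEven T).sphIso (Iso.refl _) n)
  · have h1 : ∀ (i : ℤ) (x : (c.M ((𝟙_ T)⟦2 * n + 1⟧)).A i), x = 0 := by
      intro i x
      have h2 : ∀ x : (stdEven T).S i ⟶ c.R ⊗ ((𝟙_ T)⟦2 * n + 1⟧ ⊗ c.C), x = 0 := by
        intro x
        have hE : EvenCell T 0 ((𝟙_ T)⟦2 * (0 : ℤ)⟧) := EvenCell.sphere 0 le_rfl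
        have e0 : (𝟙_ T)⟦2 * (0 : ℤ)⟧ ≅ 𝟙_ T := (shiftFunctorZero' T (2 * (0 : ℤ)) (by simp)).app _
        have h3 : ∀ (k : ℤ) (f : (𝟙_ T)⟦2 * k + 1⟧ ⟶ HC c.R c.C (𝟙_ T)), f = 0 := fun k f => by
          have h4 := HC_odd h.odd hE k (f ≫ hmap c.R c.C e0.inv)
          have h5 : f = (f ≫ hmap c.R c.C e0.inv) ≫ hmap c.R c.C e0.hom := by
            rw [Category.assoc, ← hmap_comp, Iso.inv_hom_id, hmap_id, Category.comp_id]
          rw [h5, h4, zero_comp]
        have h6 : ((stdEven T).sphIso (Iso.refl _) i).inv ≫ x = 0 := by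
          rw [← cancel_mono (hcShift c.R c.C (𝟙_ T) (2 * n + 1)).hom, zero_comp]
          exact eq_zero_of_shift (2 * (i - n - 1) + 1) (2 * n + 1) (2 * i) (by ring)
            (h3 (i - n - 1)) _
        rw [← cancel_epi ((stdEven T).sphIso (Iso.refl _) i).inv, h6, comp_zero]
      exact h2 x
    refine ⟨fun P => GM.Proj.of_subsingleton h1, fun f _ => hN n f, fun φ => ⟨0, ?_⟩⟩
    refine GM.Lin.ext fun i x => ?_
    rw [h1 i x, _root_.map_zero, _root_.map_zero]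

end Vale.Agent.P221.H174
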