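import Vale.Agent.P221.H174.Sph
import Vale.Agent.P221.H395.Comp2

/-!
# P221, block D1: objects with `M(X) = 0` and `M(X⟦1⟧) = 0`

* `Ctx.pi_zero` : all homotopy of `R ⊗ (X ⊗ C)` vanishes;
* `Ctx.hom_zero` : all maps to targets vanish;
* `zero_ofMU` : bounded below `p`-complete objects with `M(X) = M(X⟦1⟧) = 0` are zero.
-/

open CategoryTheory MonoidalCategory Limits Pretriangulated MonObj
open Vale.Agent.P251.T Vale.Agent.P251.M Vale.Agent.P251.S Vale.Agent.P251.I Vale.Agent.P093.N0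
open Vale.Agent.P251.M.EvenSpheres Vale.Agent.P251.F Vale.Agent.P251.Z
open Vale.Agent.P221.H520 Vale.Agent.P221.H817

universe v u

set_option linter.unusedSectionVars false
set_option linter.unusedVariables false

noncomputable section

namespace Vale.Agent.P221.H174

variable {T : Type u} [Category.{0} T] [Preadditive T] [HasZeroObject T]
    [HasShift T ℤ] [∀ n : ℤ, (shiftFunctor T n).Additive] [Pretriangulated T] [IsTriangulated T]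
    [MonoidalCategory T] [SymmetricCategory T] [TensorTriangulated T] [MonoidalClosed T]
    [HasCoproducts.{0} T] [HasProducts.{0} T] [StableCat T] {p : ℕ}

namespace Ctx

variable (c : Ctx T p) {X : T}

theorem pi_even_zero (h0 : ∀ i (x : (c.M X).A i), x = 0) (i : ℤ)
    (f : (𝟙_ T)⟦2 * i⟧ ⟶ HC c.R c.C X) : f = 0 := by
  have h : ∀ x : (stdEven T).S i ⟶ c.R ⊗ (X ⊗ c.C), x = 0 := h0 i
  have h1 := h (((stdEven T).sphIso (Iso.refl _) i).hom ≫ f)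
  rw [← cancel_epi ((stdEven T).sphIso (Iso.refl _) i).hom, h1, comp_zero]

theorem pi_zero (h0 : ∀ i (x : (c.M X).A i), x = 0)
    (h1 : ∀ i (x : (c.M (X⟦(1 : ℤ)⟧)).A i), x = 0) (k : ℤ) (f : (𝟙_ T)⟦k⟧ ⟶ HC c.R c.C X) :
    f = 0 := by
  rcases Int.even_or_odd' k with ⟨i, rfl | rfl⟩
  · exact c.pi_even_zero h0 i f
  · have h2 : ∀ g : (𝟙_ T)⟦2 * (i + 1)⟧ ⟶ (HC c.R c.C X)⟦(1 : ℤ)⟧, g = 0 := fun g => by
      rw [← cancel_mono (hcShift c.R c.C X 1).inv, zero_comp]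
      exact c.pi_even_zero h1 (i + 1) _
    let e := (shiftFunctorCompIsoId T (1 : ℤ) (-1) (by norm_num)).app (HC c.R c.C X)
    rw [← cancel_mono e.inv, zero_comp]
    exact eq_zero_of_shift (2 * (i + 1)) (-1) (2 * i + 1) (by ring) h2 (f ≫ e.inv)

theorem isZero_HC (h0 : ∀ i (x : (c.M X).A i), x = 0)
    (h1 : ∀ i (x : (c.M (X⟦(1 : ℤ)⟧)).A i), x = 0) : IsZero (HC c.R c.C X) :=
  isZero_of_pi fun k w => c.pi_zero h0 h1 k w

theorem hom_zero (t : Tgt c) (h0 : ∀ i (x : (c.M X).A i), x = 0)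
    (h1 : ∀ i (x : (c.M (X⟦(1 : ℤ)⟧)).A i), x = 0) (f : X ⟶ t.N) : f = 0 := by
  rw [← c.gn_kfun t f, (c.isZero_HC h0 h1).eq_of_src (kfun t.L t.r f) 0, comp_zero]

theorem pi_odd_zero (h1 : ∀ i (x : (c.M (X⟦(1 : ℤ)⟧)).A i), x = 0) (i : ℤ)
    (f : (𝟙_ T)⟦2 * i + 1⟧ ⟶ HC c.R c.C X) : f = 0 := by
  have h2 : ∀ g : (𝟙_ T)⟦2 * (i + 1)⟧ ⟶ (HC c.R c.C X)⟦(1 : ℤ)⟧, g = 0 := fun g => by
    rw [← cancel_mono (hcShift c.R c.C X 1).inv, zero_comp]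
    exact c.pi_even_zero h1 (i + 1) _
  let e := (shiftFunctorCompIsoId T (1 : ℤ) (-1) (by norm_num)).app (HC c.R c.C X)
  rw [← cancel_mono e.inv, zero_comp]
  exact eq_zero_of_shift (2 * (i + 1)) (-1) (2 * i + 1) (by ring) h2 (f ≫ e.inv)

/-- the odd part: `M(X⟦1⟧) = 0` if the odd homotopy of `R ⊗ (X ⊗ C)` vanishes -/
theorem M_shift_one_zero (h : ∀ (k : ℤ) (f : (𝟙_ T)⟦2 * k + 1⟧ ⟶ HC c.R c.C X), f = 0) (i : ℤ)
    (x : (c.M (X⟦(1 : ℤ)⟧)).A i) : x = 0 := by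
  have h2 : ∀ x : (stdEven T).S i ⟶ c.R ⊗ (X⟦(1 : ℤ)⟧ ⊗ c.C), x = 0 := by
    intro x
    have h6 : ((stdEven T).sphIso (Iso.refl _) i).inv ≫ x = 0 := by
      rw [← cancel_mono (hcShift c.R c.C X 1).hom, zero_comp]
      exact eq_zero_of_shift (2 * (i - 1) + 1) 1 (2 * i) (by ring) (h (i - 1)) _
    rw [← cancel_epi ((stdEven T).sphIso (Iso.refl _) i).inv, h6, comp_zero]
  exact h2 x

end Ctx

/-- Bounded below `p`-complete objects with `M(X) = M(X⟦1⟧) = 0` are zero. -/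
theorem zero_ofMU (D : MUData T) (hA : MUAll D) {C : T} {i : 𝟙_ T ⟶ C} {p : ℕ} [Fact p.Prime]
    {δ : C ⟶ (𝟙_ T)⟦(1 : ℤ)⟧} (hC : Triangle.mk ((p : ℤ) • 𝟙 (𝟙_ T)) i δ ∈ distTriang T)
    (X : T) (m : ℤ) (hX : Conn m X) (hc : H395.PComplete p X)
    (h0 : ∀ i (x : ((Ctx.ofMU D hA hC).M X).A i), x = 0)
    (h1 : ∀ i (x : ((Ctx.ofMU D hA hC).M (X⟦(1 : ℤ)⟧)).A i), x = 0) : IsZero X :=
  H395.isZero_of_hom_R hC D hX hc fun k f => (Ctx.ofMU D hA hC).pi_zero h0 h1 k f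

end Vale.Agent.P221.H174
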