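import Vale.Agent.P221.H924.Scale
import Vale.Agent.P251.F.LazWt
import Mathlib.RingTheory.MvPolynomial.WeightedHomogeneous

/-!
# P221, block D1: homogeneous elements of `Laz` modulo `p`

* `zeta p m ∈ Laz` : an element of weight `m + 1` with `toY p (zeta p m) = X m`;
* `isWH_toY` : `toY p z` is homogeneous if `z` is;
* `exists_toY` : every homogeneous polynomial is `toY p z`, `z` homogeneous;
* `exists_aeval_zeta` : `Laz` is generated by the `zeta p m` modulo `p`.
-/

namespace Vale.Agent.P221.H174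

open Vale.Agent.P251.F Vale.Agent.P221.H924

variable (p : ℕ) [hp : Fact p.Prime]

/-- the weights `m + 1` -/
abbrev wtm (m : ℕ) : ℤ := (m : ℤ) + 1

/-- an element of weight `m + 1` of `Laz` with image `X m` -/
noncomputable def zeta (m : ℕ) : Laz := yF p Laz.univ m

theorem toY_zeta (m : ℕ) : toY p (zeta p m) = MvPolynomial.X m := by
  rw [zeta, map_yF]
  exact yF_yLaw p m

theorem isWt_zeta (m : ℕ) :
    Cob.IsWt (wtm m) (MvPolynomial.C (zeta p m) : Cob Laz 0) := by
  unfold zeta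
  by_cases h : ∃ k, m + 2 = p ^ k
  · obtain ⟨k, hk⟩ := h
    rw [yF_eq_vv _ hk]
    have h1 := Laz.isWt_C_v hp.out.ne_zero k
    have h2 : ((p ^ k - 1 : ℕ) : ℤ) = wtm m := by
      rw [← hk]
      change ((m + 1 : ℕ) : ℤ) = _
      push_cast
      rfl
    rw [h2] at h1
    exact h1
  · rw [yF_eq_xC _ h]
    exact Laz.isWt_x m

theorem homLaw_yLaw : HomLaw (fun m => m + 1) (yLaw p) := by
  have hB : ((p : ℕ) : LaurentPolynomial (MvPolynomial ℕ (ZMod p))) = 0 := by
    have h1 : ((p : ℕ) : MvPolynomial ℕ (ZMod p)) = 0 := by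
      rw [← map_natCast (MvPolynomial.C (σ := ℕ) (R := ZMod p)), CharP.cast_eq_zero, map_zero]
    rw [← map_natCast (LaurentPolynomial.C : MvPolynomial ℕ (ZMod p) →+* _), h1, map_zero]
  refine law_ext_yF hB fun n => ?_
  rw [yF_lin_inv_smul, ← map_yF, ← map_yF, yF_yLaw, sc_X, mul_comm]
  congr 1
  have h3 := unitT_zpow (MvPolynomial ℕ (ZMod p)) ((n + 1 : ℕ) : ℤ)
  rw [← h3, zpow_natCast, Units.val_pow_eq_pow_val]

theorem toY_eq_lift (z : Laz) : toY p z = Laz.lift (yLaw p) z := by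
  rw [yLaw, Laz.lift_map_univ]

theorem weight_wtm (d : ℕ →₀ ℕ) :
    Finsupp.weight wtm d = ((Finsupp.weight (fun m : ℕ => m + 1) d : ℕ) : ℤ) := by
  rw [Finsupp.weight_apply, Finsupp.weight_apply, Finsupp.sum, Finsupp.sum]
  push_cast
  refine Finset.sum_congr rfl fun i _ => ?_
  simp [wtm]

theorem isWH_toY {w : ℤ} {z : Laz} (hz : Cob.IsWt w (MvPolynomial.C z : Cob Laz 0)) :
    (toY p z).IsWeightedHomogeneous wtm w := by
  rw [toY_eq_lift]
  rcases lt_or_ge w 0 with h | h
  · rw [(homLaw_yLaw p).lift_neg h hz]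
    exact MvPolynomial.isWeightedHomogeneous_zero _ _ _
  · obtain ⟨v, rfl⟩ := Int.eq_ofNat_of_zero_le h
    have h1 := (homLaw_yLaw p).lift hz
    intro d hd
    rw [weight_wtm, h1 hd]

/-- Every homogeneous polynomial is the image of a homogeneous element. -/
theorem exists_toY {w : ℤ} {f : MvPolynomial ℕ (ZMod p)} (hf : f.IsWeightedHomogeneous wtm w) :
    ∃ z : Laz, Cob.IsWt w (MvPolynomial.C z : Cob Laz 0) ∧ toY p z = f := by
  obtain ⟨z₀, rfl⟩ := toY_surjective p f
  have h1 : ∀ v : ℤ, ∃ z : Laz, MvPolynomial.C z = Cob.proj v (MvPolynomial.C z₀ : Cob Laz 0) :=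
    fun v => MvPolynomial.C_surjective (Fin 0 × ℕ) _
  choose z hz using h1
  have h2 : ∑ v ∈ Cob.wts (MvPolynomial.C z₀ : Cob Laz 0), z v = z₀ := by
    apply MvPolynomial.C_injective (Fin 0 × ℕ) Laz
    rw [map_sum]
    simp only [hz]
    exact Cob.sum_proj _
  have hw : ∀ v, Cob.IsWt v (MvPolynomial.C (z v) : Cob Laz 0) := fun v => by
    rw [hz]
    exact Cob.isWt_proj _ _
  refine ⟨z w, hw w, ?_⟩
  ext d
  by_cases hd : Finsupp.weight wtm d = w
  · conv_rhs => rw [← h2, map_sum, MvPolynomial.coeff_sum]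
    have h3 : ∀ v, v ≠ w → MvPolynomial.coeff d (toY p (z v)) = 0 := by
      intro v hv
      by_contra h4
      exact hv ((isWH_toY p (hw v) h4).symm.trans hd)
    by_cases hm : w ∈ Cob.wts (MvPolynomial.C z₀ : Cob Laz 0)
    · rw [Finset.sum_eq_single_of_mem w hm fun v _ hv => h3 v hv]
    · rw [Finset.sum_eq_zero fun v hv => h3 v fun h => hm (h ▸ hv)]
      have h4 : z w = 0 := by
        apply MvPolynomial.C_injective (Fin 0 × ℕ) Laz
        rw [hz, Cob.proj_eq_zero hm, map_zero]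
      rw [h4, map_zero, MvPolynomial.coeff_zero]
  · have h3 : MvPolynomial.coeff d (toY p (z w)) = 0 := by
      by_contra h4
      exact hd (isWH_toY p (hw w) h4)
    have h5 : MvPolynomial.coeff d (toY p z₀) = 0 := by
      by_contra h4
      exact hd (hf h4)
    rw [h3, h5]

/-- `Laz` is generated by the `zeta p m` modulo `p`. -/
theorem exists_aeval_zeta (z : Laz) : ∃ (F : MvPolynomial ℕ ℤ) (z' : Laz),
    z = MvPolynomial.aeval (zeta p) F + (p : Laz) * z' := by
  obtain ⟨F, hF⟩ := MvPolynomial.map_surjective (σ := ℕ) (Int.castRingHom (ZMod p))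
    (ZMod.ringHom_surjective _) (toY p z)
  have h1 : toY p (MvPolynomial.aeval (zeta p) F) = MvPolynomial.map (Int.castRingHom (ZMod p)) F := by
    have h2 : (toY p).comp (MvPolynomial.aeval (zeta p) : MvPolynomial ℕ ℤ →ₐ[ℤ] Laz).toRingHom =
        MvPolynomial.map (Int.castRingHom (ZMod p)) := by
      apply MvPolynomial.ringHom_ext
      · intro r
        simp
      · intro n
        simp [toY_zeta]
    exact DFunLike.congr_fun h2 F
  have h3 : z - MvPolynomial.aeval (zeta p) F ∈ RingHom.ker (toY p) := by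
    rw [RingHom.mem_ker, map_sub, h1, hF, sub_self]
  rw [ker_toY, Ideal.mem_span_singleton] at h3
  obtain ⟨z', hz'⟩ := h3
  exact ⟨F, z', by rw [← hz', add_sub_cancel]⟩

end Vale.Agent.P221.H174
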